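import Vale.Agent.P292.K.Defs

/-! P292 K/Crd (TASK). Coordinate vector fields. `y j = t (τ j.succ) / t (τ 0)`. By `hcb_key` a
derivation killing all `y j` kills the local ring, hence `K` (each element of `K` is a quotient of
two elements of the local ring: `ht.2`, divide both forms by `t (τ 0) ^ d`). So the linear map
`D ↦ (D (y j))` to `Fin d → K` is injective; `hse_basis` and `exists_der` give `d` linearly
independent derivations, so it is bijective. `reg` by `hcb_key` and `dual`.
`gram_change`: `gram F = P * gram f * Pᵀ`. Prefix helper names by `kcr_`. -/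

open Set Matrix MvPolynomial

noncomputable section

namespace Vale.Agent.P292

open Vale.Agent.P271 Vale.Agent.P276

variable {K : Type} [Field K] [Algebra ℂ K] {N n m d r D : ℕ} {t : Fin (N + 1) → K} {S : Cn K N}
  {θ : Derivation ℂ K K →ₗ[K] K} {v : Fin (N + 1) → ℂ} {g : (Fin (N + 1) → ℂ) → K} {g₀ : K}
  {W : Type} [Field W] [Algebra ℂ W] {τ : Fin (d + 1) → Fin (N + 1)} {f : Fin (d + 1) → Vh K}
  {H : Fin S.M → Vh K}

theorem kcr_sum {ι : Type} (s : Finset ι) (δ : ι → Derivation ℂ K K) (a : K) :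
    (∑ i ∈ s, δ i) a = ∑ i ∈ s, δ i a := by
  classical
  induction s using Finset.induction_on with
  | empty => simp
  | insert i s hi ih => rw [Finset.sum_insert hi, Finset.sum_insert hi, Derivation.add_apply, ih]

theorem kcr_mem {l : Fin (N + 1)} (hl : t l ≠ 0) (hv : v l ≠ 0) {k : ℕ} {P : MP N}
    (hP : P.IsHomogeneous k) : aeval t P / t l ^ k ∈ locRing t v :=
  Algebra.subset_adjoin ⟨k, P, X l ^ k, hP, isHomogeneous_X_pow l k, by
    rw [map_pow, eval_X]
    exact pow_ne_zero k hv, by rw [map_pow, aeval_X, div_mul_cancel₀ _ (pow_ne_zero k hl)]⟩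

theorem kcr_inj (ht : IsFunctionField t) {e : Fin r ⊕ Fin (d + 1) ≃ Fin (N + 1)}
    {G : Fin r → MP N} {γ : Fin r → ℕ} (h : Good t e v G γ τ) {δ : Derivation ℂ K K}
    (hδ : ∀ j : Fin d, δ (t (τ j.succ) / t (τ 0)) = 0) : δ = 0 := by
  have hl := h.on.ne h.l
  have h1 : ∀ a ∈ locRing t v, δ a = 0 := fun a ha => by
    obtain ⟨ρ, hρ⟩ := hcb_key h ha
    rw [hρ]
    exact Finset.sum_eq_zero fun j _ => by rw [hδ, zero_mul]
  ext a
  obtain ⟨k, P, Q, hP, hQ, h0, he⟩ := ht.2 a
  have h2 := h1 _ (kcr_mem hl h.l hP)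
  rw [← he, mul_div_assoc, δ.leibniz, h1 _ (kcr_mem hl h.l hQ), smul_zero, zero_add,
    smul_eq_mul] at h2
  exact (mul_eq_zero.1 h2).resolve_left (div_ne_zero h0 (pow_ne_zero k hl))

theorem exists_kcrd (ht : IsFunctionField t) (hs : IsSmoothOfDim t d)
    {e : Fin r ⊕ Fin (d + 1) ≃ Fin (N + 1)} {G : Fin r → MP N} {γ : Fin r → ℕ}
    (h : Good t e v G γ τ) : ∃ p, KCrd t v τ p := by
  have hl := h.on.ne h.l
  obtain ⟨y, hy⟩ := hse_basis hs
  obtain ⟨δ, hδ⟩ := exists_der hy
  let L : Derivation ℂ K K →ₗ[K] Fin d → K :=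
    { toFun := fun D j => D (t (τ j.succ) / t (τ 0))
      map_add' := fun _ _ => rfl
      map_smul' := fun _ _ => rfl }
  have h1 : Function.Injective (L.comp (Fintype.linearCombination K δ)) := by
    refine (injective_iff_map_eq_zero _).2 fun c hc => funext fun j => ?_
    have h2 : Fintype.linearCombination K δ c = 0 := kcr_inj ht h (congrFun hc)
    have h3 := congrArg (fun D : Derivation ℂ K K => D (y j)) h2
    simpa [Fintype.linearCombination_apply, kcr_sum, hδ] using h3
  have h2 := LinearMap.surjective_of_injective h1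
  choose c hc using fun i : Fin d => h2 fun j => if i = j then 1 else 0
  have h3 : ∀ i j, Fintype.linearCombination K δ (c i) (t (τ j.succ) / t (τ 0)) =
      if i = j then 1 else 0 := fun i j => congrFun (hc i) j
  refine ⟨fun i => Fintype.linearCombination K δ (c i), hl, fun j => ?_, fun i a ha => ?_, h3,
    fun D => sub_eq_zero.1 (kcr_inj ht h fun j => ?_)⟩
  · simpa only [aeval_X, pow_one] using kcr_mem hl h.l (isHomogeneous_X ℂ (τ j.succ))
  · obtain ⟨ρ, hρ⟩ := hcb_key h ha
    rw [hρ]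
    refine Subalgebra.sum_mem _ fun j _ => Subalgebra.mul_mem _ ?_ (ρ j).2
    rw [h3]
    split_ifs
    · exact one_mem _
    · exact zero_mem _
  · simp [kcr_sum, h3]

theorem gram_change {ι : Type} [Fintype ι] [DecidableEq ι] {F f : ι → Vh K} (P : Matrix ι ι K)
    (h : ∀ a, F a = ∑ b, P a b • f b) : (gram θ F).det = P.det ^ 2 * (gram θ f).det := by
  have e : gram θ F = P * gram θ f * Pᵀ := by
    ext a b
    simp only [gram, Matrix.of_apply, Matrix.mul_apply, Matrix.transpose_apply, h a, h b, map_sum,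
      map_smul, LinearMap.sum_apply, LinearMap.smul_apply, smul_eq_mul]
    exact Finset.sum_congr rfl fun c _ => mul_comm _ _
  rw [e, Matrix.det_mul, Matrix.det_mul, Matrix.det_transpose]
  ring

/-- Coordinates in the frame. -/
theorem fr_span {p : Fin d → Derivation ℂ K K} (h : KCrd t v τ p) (g₀ : K) (V : Vh K) :
    V = ∑ a, (Fin.cons (V.1 - V.2 g₀ / g₀) fun j => V.2 (t (τ j.succ) / t (τ 0)) :
      Fin (d + 1) → K) a • fr g₀ p a := by
  have h1 := congrArg (fun D : Derivation ℂ K K => D g₀) (h.span V.2)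
  simp only [kcr_sum, Derivation.smul_apply, smul_eq_mul] at h1
  rw [Fin.sum_univ_succ]
  refine Prod.ext ?_ ?_
  · simp only [fr, Fin.cons_zero, Fin.cons_succ, Prod.fst_add, Prod.fst_sum, Prod.smul_fst,
      smul_eq_mul, mul_one, ← mul_div_assoc, ← Finset.sum_div, ← h1, sub_add_cancel]
  · simp only [fr, Fin.cons_zero, Fin.cons_succ, Prod.snd_add, Prod.snd_sum, Prod.smul_snd,
      smul_zero, zero_add]
    exact h.span V.2

end Vale.Agent.P292
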