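import Vale.Agent.P292.K.Defs

/-! P292 K/Ham (TASK). Hamiltonian fields. `H = ∑ c b • f b` with `gram *ᵥ c = fun a => ξ (f a)`
(`gram` is invertible by `Loc.det`); both sides are linear in `V`, use `Loc.span`. `om_inj`: write
`V = ∑ c b • f b`, then `gram *ᵥ c = 0`. `ham_reg`: write `X = ∑ c b • f b`; with `A = g • gram`
(entries in the local ring, unit determinant, `Matrix.det_smul`), `A *ᵥ (g ^ (k - 1) • c)` is the
vector `dk k a (f b) * g ^ k`, so by Cramer (`adjugate_mul`; entries of the adjugate are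
determinants) `c b * g ^ (k - 1)` is in the local ring. Prefix helper names by `kha_`. -/

open Set Matrix MvPolynomial

noncomputable section

namespace Vale.Agent.P292

open Vale.Agent.P271 Vale.Agent.P276

variable {K : Type} [Field K] [Algebra ℂ K] {N n m d r D : ℕ} {t : Fin (N + 1) → K} {S : Cn K N}
  {θ : Derivation ℂ K K →ₗ[K] K} {v : Fin (N + 1) → ℂ} {g : (Fin (N + 1) → ℂ) → K} {g₀ : K}
  {W : Type} [Field W] [Algebra ℂ W] {τ : Fin (d + 1) → Fin (N + 1)} {f : Fin (d + 1) → Vh K}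
  {H : Fin S.M → Vh K}

theorem kha_det (h : Loc t θ v g₀ τ f) : (gram θ f).det ≠ 0 := right_ne_zero_of_mul h.det.1

theorem kha_om (θ : Derivation ℂ K K →ₗ[K] K) (f : Fin (d + 1) → Vh K) (c : Fin (d + 1) → K)
    (a : Fin (d + 1)) : Om θ (f a) (∑ b, c b • f b) = (gram θ f *ᵥ c) a := by
  rw [map_sum]
  simp only [map_smul, smul_eq_mul, Matrix.mulVec, dotProduct, gram, Matrix.of_apply]
  exact Finset.sum_congr rfl fun b _ => mul_comm _ _

theorem kha_adj {ι : Type} [Fintype ι] [DecidableEq ι] (O : Subalgebra ℂ K) {A : Matrix ι ι K}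
    (hA : ∀ i j, A i j ∈ O) (i j : ι) : A.adjugate i j ∈ O := by
  let A' : Matrix ι ι O := Matrix.of fun i j => ⟨A i j, hA i j⟩
  have h1 : A = (O.val : O →+* K).mapMatrix A' := by
    ext i j
    rfl
  rw [h1, ← RingHom.map_adjugate]
  exact (A'.adjugate i j).2

theorem kha_cramer {ι : Type} [Fintype ι] [DecidableEq ι] (O : Subalgebra ℂ K) {A : Matrix ι ι K}
    (hA : ∀ i j, A i j ∈ O) (hd : Un O A.det) {x : ι → K} (hx : ∀ i, (A *ᵥ x) i ∈ O) (j : ι) :
    x j ∈ O := by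
  have h1 : (A.adjugate *ᵥ (A *ᵥ x)) j = A.det * x j := by
    rw [Matrix.mulVec_mulVec, Matrix.adjugate_mul, Matrix.smul_mulVec, Matrix.one_mulVec]
    rfl
  have h2 : x j = A.det⁻¹ * ∑ i, A.adjugate j i * (A *ᵥ x) i := by
    have h3 : ∑ i, A.adjugate j i * (A *ᵥ x) i = A.det * x j := h1
    rw [h3, inv_mul_cancel_left₀ hd.1]
  rw [h2]
  exact O.mul_mem hd.2.2 (O.sum_mem fun i _ => O.mul_mem (kha_adj O hA j i) (hx i))

theorem exists_ham (h : Loc t θ v g₀ τ f) (ξ : Vh K →ₗ[K] K) : ∃ X, ∀ V, Om θ V X = ξ V := by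
  refine ⟨∑ b, ((gram θ f)⁻¹ *ᵥ fun a => ξ (f a)) b • f b, fun V => ?_⟩
  obtain ⟨c, rfl⟩ := h.span V
  rw [LinearMap.map_sum₂, map_sum ξ]
  refine Finset.sum_congr rfl fun a _ => ?_
  rw [LinearMap.map_smul₂, map_smul, kha_om, Matrix.mulVec_mulVec,
    Matrix.mul_nonsing_inv _ (kha_det h).isUnit, Matrix.one_mulVec]

theorem om_inj (h : Loc t θ v g₀ τ f) {X : Vh K} (h0 : ∀ V, Om θ V X = 0) : X = 0 := by
  obtain ⟨c, rfl⟩ := h.span X
  have h1 : gram θ f *ᵥ c = 0 := funext fun a => (kha_om θ f c a).symm.trans (h0 _)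
  rw [Matrix.eq_zero_of_mulVec_eq_zero (kha_det h) h1]
  simp

theorem ham_reg (h : Loc t θ v g₀ τ f) {k l : ℕ} (hk : 0 < k) {a b : K} {X : Vh K}
    (hX : ∀ V, Om θ V X = dk k a V) (ha : a * g₀ ^ k ∈ locRing t v)
    (hb : b * g₀ ^ l ∈ locRing t v) : dk l b X * g₀ ^ (l + k - 1) ∈ locRing t v := by
  obtain ⟨c, rfl⟩ := h.span X
  obtain ⟨k, rfl⟩ : ∃ k', k = k' + 1 := ⟨k - 1, by omega⟩
  have h1 : ∀ j, (g₀ ^ k • c) j ∈ locRing t v := by
    refine kha_cramer (locRing t v) (A := g₀ • gram θ f) (fun i j => h.om i j) ?_ fun i => ?_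
    · rw [Matrix.det_smul, Fintype.card_fin]
      exact h.det
    · have h2 := h.reg _ _ ha i
      rw [← hX, kha_om] at h2
      rw [Matrix.mulVec_smul, Matrix.smul_mulVec, Pi.smul_apply, Pi.smul_apply, smul_eq_mul,
        smul_eq_mul, ← mul_assoc, ← pow_succ, mul_comm]
      exact h2
  rw [map_sum, Finset.sum_mul]
  refine Subalgebra.sum_mem _ fun j _ => ?_
  have h3 : dk l b (c j • f j) * g₀ ^ (l + (k + 1) - 1) =
      (g₀ ^ k • c) j * (dk l b (f j) * g₀ ^ l) := by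
    rw [map_smul, Pi.smul_apply, smul_eq_mul, smul_eq_mul, Nat.add_succ_sub_one, pow_add]
    ring
  rw [h3]
  exact Subalgebra.mul_mem _ (h1 j) (h.reg _ _ hb j)

end Vale.Agent.P292
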