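import Vale.Agent.P292.K.Nv
import Vale.Agent.P292.K.Ham

/-! P292 K/Del (TASK). The brackets of the coordinates `e0 (τ a)` have a unit determinant. Write
`H (e0 (τ b)) = ∑ c, h c b • f c` (`Loc.span`), `J a c = dk D (u * t (τ a)) (f c)`. Then
`gram * h = Jᵀ` (`ham`, `we0`, `ce0`) and the matrix of values is `J * h` (`val`), so
`det * det gram = det J ^ 2 = (D * (u * t (τ 0)) ^ (d + 1)) ^ 2` (`Loc.jac`); `Loc.det`, `Gd.unit`,
`Un.mul`, `Un.inv`, `Un.pow`, `AlgHom.map_det`. `del_ne`: `wh_det`, `hom`, `nv`. `Pre.link`: take any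
point `v` (`exists_spec` at `t`) with its frame. The functionals `dk D (u * t (τ a))` separate
(`det J ≠ 0`), and the `H (e0 (τ b))` span (`det h ≠ 0`). `(pm c *ᵥ ξ) i = dk (w i) (c i) (∑ ξ j • H j)`.
So some `ξ` has `pm c *ᵥ ξ = fun i => D (c i)`, any such `ξ` has `∑ ξ j • H j = (0, D)`, and
`eu c ⬝ᵥ ξ = ∑ ξ j * dk (w j) (c j) (1, 0) = Om (1, 0) (0, D) = θ D`. Prefix helper names by `kde_`. -/

open Set Matrix MvPolynomial

noncomputable section

namespace Vale.Agent.P292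

open Vale.Agent.P271 Vale.Agent.P276

variable {K : Type} [Field K] [Algebra ℂ K] {N n m d r D : ℕ} {t : Fin (N + 1) → K} {S : Cn K N}
  {θ : Derivation ℂ K K →ₗ[K] K} {v : Fin (N + 1) → ℂ} {g : (Fin (N + 1) → ℂ) → K} {g₀ : K}
  {W : Type} [Field W] [Algebra ℂ W] {τ : Fin (d + 1) → Fin (N + 1)} {f : Fin (d + 1) → Vh K}
  {H : Fin S.M → Vh K}

theorem kde_mat (h : Pre S t θ d D g H) (hl : Loc t θ v g₀ τ f) :
    ∃ A : Matrix (Fin (d + 1)) (Fin (d + 1)) K, (∀ b, H (S.e0 (τ b)) = ∑ c, A c b • f c) ∧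
      gram θ f * A = (Matrix.of fun a c => dk D (S.u * t (τ a)) (f c))ᵀ ∧
      (Matrix.of fun a b => aeval S.c (S.p (S.e0 (τ a)) (S.e0 (τ b)))) =
        (Matrix.of fun a c => dk D (S.u * t (τ a)) (f c)) * A := by
  choose A hA using fun b => hl.span (H (S.e0 (τ b)))
  refine ⟨Matrix.of fun c b => A b c, hA, ?_, ?_⟩
  · ext a b
    have h1 := h.ham (S.e0 (τ b)) (f a)
    rw [h.gens.we0, h.gens.ce0, hA b] at h1
    simp only [map_sum, map_smul, smul_eq_mul] at h1
    simp only [Matrix.mul_apply, gram, Matrix.of_apply, Matrix.transpose_apply, ← h1]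
    exact Finset.sum_congr rfl fun c _ => mul_comm _ _
  · ext a b
    have h1 := h.val (S.e0 (τ a)) (S.e0 (τ b))
    rw [h.gens.we0, h.gens.ce0, hA b] at h1
    simp only [map_sum, map_smul, smul_eq_mul] at h1
    simp only [Matrix.mul_apply, Matrix.of_apply, h1]
    exact Finset.sum_congr rfl fun c _ => mul_comm _ _

theorem kde_D (h : Pre S t θ d D g H) : (D : K) ≠ 0 := by
  haveI : CharZero K := charZero_of_injective_algebraMap (algebraMap ℂ K).injective
  exact Nat.cast_ne_zero.2 h.gd.pos.ne'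

theorem del_un (h : Pre S t θ d D g H) (hv : OnX t v) (h0 : v (τ 0) ≠ 0)
    (hl : Loc t θ v (g v) τ f) : Un (locRing t v)
      (aeval S.c (Matrix.of fun a b => S.p (S.e0 (τ a)) (S.e0 (τ b))).det *
        g v ^ ((d + 1) * (D + D - 1))) := by
  obtain ⟨A, -, h1, h2⟩ := kde_mat h hl
  have h3 := congrArg Matrix.det h1
  have h4 := congrArg Matrix.det h2
  rw [Matrix.det_mul, Matrix.det_transpose, hl.jac] at h3
  rw [Matrix.det_mul, hl.jac] at h4
  have h5 : aeval S.c (Matrix.of fun a b => S.p (S.e0 (τ a)) (S.e0 (τ b))).det =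
      (Matrix.of fun a b => aeval S.c (S.p (S.e0 (τ a)) (S.e0 (τ b)))).det :=
    AlgHom.map_det _ _
  have hD : Un (locRing t v) (D : K) := by
    refine ⟨kde_D h, natCast_mem _ D, ?_⟩
    have e : ((D : K))⁻¹ = algebraMap ℂ K (D : ℂ)⁻¹ := by rw [map_inv₀, map_natCast]
    rw [e]
    exact Subalgebra.algebraMap_mem _ _
  have h6 := ((hD.pow 2).mul ((h.gd.unit v hv _ h0).pow (2 * (d + 1)))).mul hl.det.inv
  have hg := hl.gne
  have hG : (gram θ f).det ≠ 0 := right_ne_zero_of_mul hl.det.1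
  have h7 : A.det = (D * (S.u * t (τ 0)) ^ (d + 1)) / (gram θ f).det := by
    rw [← h3]; field_simp
  obtain ⟨D', rfl⟩ : ∃ D', D = D' + 1 := ⟨D - 1, by have := h.gd.pos; omega⟩
  have e : D' + 1 + (D' + 1) - 1 = 2 * D' + 1 := by omega
  refine (congrArg (Un (locRing t v)) ?_).mp h6
  rw [h5, h4, h7, e]
  field_simp
  ring

theorem del_ne (h : Pre S t θ d D g H) (hv : OnX t v) (h0 : v (τ 0) ≠ 0)
    (hl : Loc t θ v (g v) τ f) {z : Fin S.M → W} (hz : S.On z) (hs : Spec v (z ∘ S.e0)) :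
    (Matrix.of fun a b => S.pm z (S.e0 (τ a)) (S.e0 (τ b))).det ≠ 0 := by
  have h1 : (Matrix.of fun a b => S.p (S.e0 (τ a)) (S.e0 (τ b))).det.IsWeightedHomogeneous S.w
      ((d + 1) * (D + D - 1)) := by
    have h2 := wh_det (w := S.w) (e := D + D - 1)
      (A := Matrix.of fun a b => S.p (S.e0 (τ a)) (S.e0 (τ b))) fun a b => by
        have h3 := h.hom (S.e0 (τ a)) (S.e0 (τ b))
        rwa [h.gens.we0, h.gens.we0] at h3
    rwa [Fintype.card_fin] at h2
  have h4 := nv h.gd h.gens hv h1 (del_un h hv h0 hl) hz hs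
  rwa [AlgHom.map_det] at h4

theorem Pre.link (h : Pre S t θ d D g H) : S.Link θ := by
  obtain ⟨v, hv, -⟩ := exists_spec (t := t) (x := t) (fun _ _ _ k => k) h.ff.1
  obtain ⟨r, e, G, γ, τ, f, hG, hl⟩ := h.locs v hv
  obtain ⟨A, hA, h1, -⟩ := kde_mat h hl
  have hy : S.u * t (τ 0) ≠ 0 := left_ne_zero_of_mul (h.gd.unit v hv _ hG.l).1
  have hJ : (Matrix.of fun a c => dk D (S.u * t (τ a)) (f c)).det ≠ 0 := by
    rw [hl.jac]
    exact mul_ne_zero (kde_D h) (pow_ne_zero _ hy)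
  have hA0 : A.det ≠ 0 := by
    have h3 := congrArg Matrix.det h1
    rw [Matrix.det_mul, Matrix.det_transpose] at h3
    exact right_ne_zero_of_mul (h3 ▸ hJ)
  have hpm : ∀ (ξ : Fin S.M → K) i, (S.pm S.c *ᵥ ξ) i = dk (S.w i) (S.c i) (∑ j, ξ j • H j) := by
    intro ξ i
    simp only [Matrix.mulVec, dotProduct, Cn.pm, Matrix.of_apply, h.val, map_sum, map_smul,
      smul_eq_mul]
    exact Finset.sum_congr rfl fun j _ => mul_comm _ _
  have hd0 : ∀ (Dv : Derivation ℂ K K) (k : ℕ) (a : K), dk k a (0, Dv) = Dv a := by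
    intro Dv k a
    simp [dk_apply]
  intro Dv
  have hex : ∃ ξ, S.pm S.c *ᵥ ξ = fun i => Dv (S.c i) := by
    obtain ⟨a, ha⟩ := hl.span (0, Dv)
    obtain ⟨η, hη⟩ : ∃ η, A *ᵥ η = a :=
      ⟨A⁻¹ *ᵥ a, by
        rw [Matrix.mulVec_mulVec, Matrix.mul_nonsing_inv _ (isUnit_iff_ne_zero.2 hA0),
          Matrix.one_mulVec]⟩
    refine ⟨∑ b, Pi.single (S.e0 (τ b)) (η b), funext fun i => ?_⟩
    have k1 : ∑ j, (∑ b, Pi.single (S.e0 (τ b)) (η b) : Fin S.M → K) j • H j =
        ∑ b, η b • H (S.e0 (τ b)) := by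
      simp only [Finset.sum_apply, Finset.sum_smul]
      rw [Finset.sum_comm]
      refine Finset.sum_congr rfl fun b _ => ?_
      rw [Finset.sum_eq_single (S.e0 (τ b)) (fun j _ hj => by rw [Pi.single_eq_of_ne hj, zero_smul])
        (fun k => absurd (Finset.mem_univ _) k), Pi.single_eq_same]
    have k2 : ∑ b, η b • H (S.e0 (τ b)) = (0, Dv) := by
      rw [ha, ← hη]
      simp only [hA, Finset.smul_sum, smul_smul, Matrix.mulVec, dotProduct, Finset.sum_smul]
      rw [Finset.sum_comm]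
      exact Finset.sum_congr rfl fun c _ => Finset.sum_congr rfl fun b _ => by rw [mul_comm]
    rw [hpm, k1, k2, hd0]
  have hξ := hex.choose_spec
  have hV : ∑ j, hex.choose j • H j = (0, Dv) := by
    obtain ⟨a, ha⟩ := hl.span (∑ j, hex.choose j • H j - (0, Dv))
    have k1 : (Matrix.of fun a c => dk D (S.u * t (τ a)) (f c)) *ᵥ a = 0 := by
      funext b
      have k2 := congrFun hξ (S.e0 (τ b))
      rw [hpm, h.gens.we0, h.gens.ce0] at k2
      have k3 := congrArg (dk D (S.u * t (τ b))) ha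
      rw [map_sub, k2, hd0, sub_self] at k3
      simp only [map_sum, map_smul, smul_eq_mul] at k3
      simp only [Matrix.mulVec, dotProduct, Matrix.of_apply, Pi.zero_apply]
      rw [k3]
      exact Finset.sum_congr rfl fun c _ => mul_comm _ _
    have k4 := Matrix.eq_zero_of_mulVec_eq_zero hJ k1
    rw [k4] at ha
    simpa [sub_eq_zero] using ha
  have hfin : S.om S.c (S.eu S.c) (fun i => Dv (S.c i)) = θ Dv := by
    have k1 : Om θ (1, 0) (0, Dv) = θ Dv := by simp [Om_apply]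
    rw [Cn.om, dif_pos hex, ← k1, ← hV]
    simp only [map_sum, map_smul, h.ham, smul_eq_mul, dotProduct, Cn.eu, dk_apply]
    exact Finset.sum_congr rfl fun j _ => by simp; ring
  rw [hfin]

end Vale.Agent.P292
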