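import Vale.Agent.P292.K.Tr

/-! P292 K/Jac (TASK). `om_closed`: expand `Om_apply`, `dk_apply`, `brk`; derivations are additive
and satisfy Leibniz; `⁅D, D'⁆ a = D (D' a) - D' (D a)` (`Derivation.commutator_apply`), and `θ` of
the Jacobi identity (`lie_jacobi`, `lie_skew`) vanishes; `linear_combination`. `dk_brk`: direct.
`jac_K`: `om_closed` at `X₁ X₂ X₃`, with `Om X₂ X₃ = dk k₃ a₃ X₂`, `Om (brk X₁ X₂) X₃ = dk k₃ a₃ (brk X₁ X₂)`,
`dk_brk`, `dk j a X = dk k a X + (j - k) * X.1 * a` and `dk k₁ a₁ X₂ = - dk k₂ a₂ X₁` (`Om_anti`);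
write `k i = j i + 1` to remove the subtraction. `Pre.jac`: the sum is `aeval z` of a polynomial that
is weighted homogeneous of degree `w i + w j + w k - 2` (`wh_mul_pderiv` with `a = w i - 1`), and its
value at `S.c` vanishes by `dk_aeval` (use `val`, `alt`: `aeval c (p i l) = - dk (w l) (c l) (H i)`)
and `jac_K`. `Pre.tanp`: the same with `dk e (aeval c P) (H i) = dk e 0 (H i) = 0`.
Prefix helper names by `kja_`. -/

open Set Matrix MvPolynomial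

noncomputable section

namespace Vale.Agent.P292

open Vale.Agent.P271 Vale.Agent.P276

variable {K : Type} [Field K] [Algebra ℂ K] {N n m d r D : ℕ} {t : Fin (N + 1) → K} {S : Cn K N}
  {θ : Derivation ℂ K K →ₗ[K] K} {v : Fin (N + 1) → ℂ} {g : (Fin (N + 1) → ℂ) → K} {g₀ : K}
  {W : Type} [Field W] [Algebra ℂ W] {τ : Fin (d + 1) → Fin (N + 1)} {f : Fin (d + 1) → Vh K}
  {H : Fin S.M → Vh K}

/-- The bracket of homogeneous vector fields. -/
def brk (V V' : Vh K) : Vh K := (V.2 V'.1 - V'.2 V.1, ⁅V.2, V'.2⁆)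

theorem om_closed (V₁ V₂ V₃ : Vh K) :
    dk 1 (Om θ V₂ V₃) V₁ + dk 1 (Om θ V₃ V₁) V₂ + dk 1 (Om θ V₁ V₂) V₃ =
      Om θ (brk V₁ V₂) V₃ + Om θ (brk V₂ V₃) V₁ + Om θ (brk V₃ V₁) V₂ := by
  have hj : θ ⁅⁅V₁.2, V₂.2⁆, V₃.2⁆ + θ ⁅⁅V₂.2, V₃.2⁆, V₁.2⁆ + θ ⁅⁅V₃.2, V₁.2⁆, V₂.2⁆ = 0 := by
    have h1 := congrArg θ (lie_jacobi V₁.2 V₂.2 V₃.2)
    rw [map_add, map_add, map_zero] at h1
    rw [← lie_skew ⁅V₁.2, V₂.2⁆, ← lie_skew ⁅V₂.2, V₃.2⁆, ← lie_skew ⁅V₃.2, V₁.2⁆, map_neg, map_neg,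
      map_neg]
    linear_combination -h1
  simp only [Om_apply, dk_apply, brk, map_add, map_sub, Derivation.leibniz, smul_eq_mul,
    Derivation.commutator_apply, Nat.cast_one]
  linear_combination hj

theorem dk_brk (k : ℕ) (a : K) (V V' : Vh K) :
    dk k a (brk V V') = dk k (dk k a V') V - dk k (dk k a V) V' := by
  simp only [dk_apply, brk, map_add, Derivation.leibniz, smul_eq_mul,
    Derivation.commutator_apply, Derivation.map_natCast]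
  ring

theorem jac_K {k₁ k₂ k₃ : ℕ} (p₁ : 0 < k₁) (p₂ : 0 < k₂) (p₃ : 0 < k₃) {a₁ a₂ a₃ : K}
    {X₁ X₂ X₃ : Vh K} (h₁ : ∀ V, Om θ V X₁ = dk k₁ a₁ V) (h₂ : ∀ V, Om θ V X₂ = dk k₂ a₂ V)
    (h₃ : ∀ V, Om θ V X₃ = dk k₃ a₃ V) :
    dk (k₂ + k₃ - 1) (dk k₂ a₂ X₃) X₁ + dk (k₃ + k₁ - 1) (dk k₃ a₃ X₁) X₂ +
      dk (k₁ + k₂ - 1) (dk k₁ a₁ X₂) X₃ = 0 := by
  have h := om_closed (θ := θ) X₁ X₂ X₃
  have e₁ : Om θ X₂ X₃ = -dk k₂ a₂ X₃ := by rw [Om_anti, h₂]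
  have e₂ : Om θ X₃ X₁ = -dk k₃ a₃ X₁ := by rw [Om_anti, h₃]
  have e₃ : Om θ X₁ X₂ = -dk k₁ a₁ X₂ := by rw [Om_anti, h₁]
  rw [h₃ (brk X₁ X₂), h₁ (brk X₂ X₃), h₂ (brk X₃ X₁), dk_brk, dk_brk, dk_brk, ← h₃ X₂, ← h₁ X₃,
    ← h₂ X₁, e₁, e₂, e₃] at h
  generalize dk k₂ a₂ X₃ = B₁ at h ⊢
  generalize dk k₃ a₃ X₁ = B₂ at h ⊢
  generalize dk k₁ a₁ X₂ = B₃ at h ⊢
  obtain ⟨j₁, rfl⟩ := Nat.exists_eq_add_one_of_ne_zero p₁.ne'
  obtain ⟨j₂, rfl⟩ := Nat.exists_eq_add_one_of_ne_zero p₂.ne'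
  obtain ⟨j₃, rfl⟩ := Nat.exists_eq_add_one_of_ne_zero p₃.ne'
  have e : ∀ a b : ℕ, a + 1 + (b + 1) - 1 = a + b + 1 := fun a b => by omega
  simp only [e, dk_apply, map_neg] at h ⊢
  push_cast at h ⊢
  linear_combination h

theorem kja_hom (h : Pre S t θ d D g H) (i : Fin S.M) {P : MvPolynomial (Fin S.M) ℂ} {e k : ℕ}
    (hP : P.IsWeightedHomogeneous S.w e) (hk : S.w i - 1 + e = k) (l : Fin S.M) :
    (S.p i l * pderiv l P).IsWeightedHomogeneous S.w k := by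
  have h1 := h.hom i l
  have h2 := h.gens.wpos i
  rw [show S.w i + S.w l - 1 = S.w i - 1 + S.w l by omega] at h1
  rw [← hk]
  exact wh_mul_pderiv h1 hP

theorem kja_val (h : Pre S t θ d D g H) (i : Fin S.M) {P : MvPolynomial (Fin S.M) ℂ} {e : ℕ}
    (hP : P.IsWeightedHomogeneous S.w e) :
    ∑ l, aeval S.c (S.p i l * pderiv l P) = -dk e (aeval S.c P) (H i) := by
  rw [dk_aeval S.c hP, ← Finset.sum_neg_distrib]
  refine Finset.sum_congr rfl fun l _ => ?_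
  rw [map_mul, h.alt l i, map_neg, h.val]
  ring

theorem Pre.jac (h : Pre S t θ d D g H) (R : Type) [CommRing R] [Algebra ℂ R] (z : Fin S.M → R)
    (hz : S.On z) (i j k : Fin S.M) :
    ∑ l, (S.pm z i l * aeval z (pderiv l (S.p j k)) + S.pm z j l * aeval z (pderiv l (S.p k i)) +
      S.pm z k l * aeval z (pderiv l (S.p i j))) = 0 := by
  have wi := h.gens.wpos i
  have wj := h.gens.wpos j
  have wk := h.gens.wpos k
  have h1 := hz (S.w i + S.w j + S.w k - 2) (∑ l, (S.p i l * pderiv l (S.p j k) +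
    S.p j l * pderiv l (S.p k i) + S.p k l * pderiv l (S.p i j)))
    (IsWeightedHomogeneous.sum _ _ _ fun l _ =>
      ((kja_hom h i (h.hom j k) (by omega) l).add (kja_hom h j (h.hom k i) (by omega) l)).add
        (kja_hom h k (h.hom i j) (by omega) l)) (by
      have h2 := jac_K wi wj wk (h.ham i) (h.ham j) (h.ham k)
      rw [map_sum]
      simp only [map_add, Finset.sum_add_distrib]
      rw [kja_val h i (h.hom j k), kja_val h j (h.hom k i), kja_val h k (h.hom i j), h.val, h.val,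
        h.val]
      linear_combination -h2)
  rw [map_sum] at h1
  simp only [map_add, map_mul] at h1
  exact h1

theorem Pre.tanp (h : Pre S t θ d D g H) (R : Type) [CommRing R] [Algebra ℂ R] (z : Fin S.M → R)
    (hz : S.On z) (i : Fin S.M) : S.Tan z (S.pm z i) := by
  intro e P hP h0
  have h1 := hz (S.w i - 1 + e) (∑ l, S.p i l * pderiv l P)
    (IsWeightedHomogeneous.sum _ _ _ fun l _ => kja_hom h i hP rfl l) (by
      rw [map_sum, kja_val h i hP, h0, dk_apply, map_zero, mul_zero, add_zero, neg_zero])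
  rw [map_sum] at h1
  refine Eq.trans (Finset.sum_congr rfl fun l _ => ?_) h1
  rw [map_mul, mul_comm]
  rfl

end Vale.Agent.P292
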