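import Vale.Agent.P292.K.Rel
import Vale.Agent.P292.K.Del
import Vale.Agent.P292.K.Jac

/-! P292 K/Fin (TASK). `kne`, `kon0`, `exists_spec` give `v` with `Spec v (z ∘ e0)`, `locs` the frame.
`pinj`: `loc_zero`. `inv`: `M = of fun a b => p (e0 (τ a)) (e0 (τ b))`, `E i a = if i = e0 (τ a) then 1 else 0`,
`a = q₁ • (E * M.adjugate * Eᵀ)`, `q = q₁ * det M` with `q₁` from `loc_zero`: the vector
`pm *ᵥ (E * adj * Eᵀ *ᵥ δ) - det M • δ` is tangent (columns of `pm` are tangent by `tanp`, `alt`; use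
`TanS`) and vanishes at the `e0 (τ a)` (`mul_adjugate`). `dim`: the linear map
`δ ↦ fun a => δ (e0 (τ a))` from `TanS z` is injective (`loc_zero`) and surjective (`del_ne`, images of
the columns of `pm`). Prefix helper names by `kfi_`. -/

open Set Matrix MvPolynomial

noncomputable section

namespace Vale.Agent.P292

open Vale.Agent.P271 Vale.Agent.P276

variable {K : Type} [Field K] [Algebra ℂ K] {N n m d r D : ℕ} {t : Fin (N + 1) → K} {S : Cn K N}
  {θ : Derivation ℂ K K →ₗ[K] K} {v : Fin (N + 1) → ℂ} {g : (Fin (N + 1) → ℂ) → K} {g₀ : K}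
  {W : Type} [Field W] [Algebra ℂ W] {τ : Fin (d + 1) → Fin (N + 1)} {f : Fin (d + 1) → Vh K}
  {H : Fin S.M → Vh K}

theorem kfi_loc (h : Pre S t θ d D g H) {z : Fin S.M → W} (hz : S.On z) (h0 : z ≠ 0) :
    ∃ (ε : Fin (d + 1) → Fin S.M) (q : MvPolynomial (Fin S.M) ℂ), aeval z q ≠ 0 ∧
      (∀ (R : Type) [CommRing R] [Algebra ℂ R] (z δ : Fin S.M → R), S.On z → S.Tan z δ →
        (∀ a, δ (ε a) = 0) → aeval z q • δ = 0) ∧ (∃ τ : Fin (d + 1) → Fin (N + 1), ε = S.e0 ∘ τ) ∧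
      (Matrix.of fun a b => S.pm z (ε a) (ε b)).det ≠ 0 := by
  obtain ⟨v, hv, hs⟩ := exists_spec (kon0 h.gens hz) (kne h.gd.pos h.gens hz h0)
  obtain ⟨r, e, G, γ, τ, f, hG, hl⟩ := h.locs v hv
  obtain ⟨q, h1, h2⟩ := loc_zero h.ff h.sm h.gd h.gens hG
  exact ⟨fun a => S.e0 (τ a), q, h1 W z hz hs, h2, ⟨τ, rfl⟩, del_ne h hv hG.l hl hz hs⟩

/-- The matrix of a choice of coordinates. -/
def kfiE (R : Type) [CommRing R] {α β : Type} [DecidableEq α] (ε : β → α) : Matrix α β R :=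
  Matrix.of fun i a => if i = ε a then 1 else 0

theorem kfi_tr {R : Type} [CommRing R] {α β : Type} [Fintype α] [DecidableEq α] (ε : β → α)
    (δ : α → R) : (kfiE R ε)ᵀ *ᵥ δ = fun a => δ (ε a) := by
  ext a
  simp [kfiE, Matrix.mulVec, dotProduct]

theorem kfi_mul {R : Type} [CommRing R] {α β : Type} [Fintype α] [Fintype β] [DecidableEq α]
    (ε : β → α) (A : Matrix α α R) (η : β → R) (a : β) :
    (A *ᵥ (kfiE R ε *ᵥ η)) (ε a) = ((Matrix.of fun a b => A (ε a) (ε b)) *ᵥ η) a := by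
  rw [Matrix.mulVec_mulVec]
  simp [kfiE, Matrix.mulVec, dotProduct, Matrix.mul_apply]

theorem kfi_col (h : Pre S t θ d D g H) {R : Type} [CommRing R] [Algebra ℂ R] {z : Fin S.M → R}
    (hz : S.On z) (ξ : Fin S.M → R) : S.pm z *ᵥ ξ ∈ S.TanS z := by
  have e : S.pm z *ᵥ ξ = ∑ j, (-ξ j) • S.pm z j := by
    ext i
    simp only [Matrix.mulVec, dotProduct, Finset.sum_apply, Pi.smul_apply, smul_eq_mul, Cn.pm,
      Matrix.of_apply]
    refine Finset.sum_congr rfl fun j _ => ?_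
    rw [h.alt j i, map_neg]
    ring
  rw [e]
  exact Submodule.sum_mem _ fun j _ => Submodule.smul_mem _ _ (h.tanp R z hz j)

theorem Pre.inv (h : Pre S t θ d D g H) (W : Type) [Field W] [Algebra ℂ W] (z : Fin S.M → W)
    (hz : S.On z) (h0 : z ≠ 0) :
    ∃ (q : MvPolynomial (Fin S.M) ℂ) (a : Matrix (Fin S.M) (Fin S.M) (MvPolynomial (Fin S.M) ℂ)),
      aeval z q ≠ 0 ∧ ∀ (R : Type) [CommRing R] [Algebra ℂ R] (z' δ : Fin S.M → R),
        S.On z' → S.Tan z' δ → S.pm z' *ᵥ (a.map (aeval z') *ᵥ δ) = aeval z' q • δ := by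
  obtain ⟨ε, q, h1, h2, -, h3⟩ := kfi_loc h hz h0
  have hm : ∀ (R : Type) [CommRing R] [Algebra ℂ R] (z' : Fin S.M → R),
      ((aeval z' : MvPolynomial (Fin S.M) ℂ →ₐ[ℂ] R) : MvPolynomial (Fin S.M) ℂ →+* R).mapMatrix
        (Matrix.of fun a b => S.p (ε a) (ε b)) = Matrix.of fun a b => S.pm z' (ε a) (ε b) :=
    fun _ _ _ _ => rfl
  have hd : ∀ (R : Type) [CommRing R] [Algebra ℂ R] (z' : Fin S.M → R),
      aeval z' (Matrix.of fun a b => S.p (ε a) (ε b)).det =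
        (Matrix.of fun a b => S.pm z' (ε a) (ε b)).det := fun R _ _ z' => by
    rw [← hm]
    exact RingHom.map_det
      ((aeval z' : MvPolynomial (Fin S.M) ℂ →ₐ[ℂ] R) : MvPolynomial (Fin S.M) ℂ →+* R) _
  refine ⟨q * (Matrix.of fun a b => S.p (ε a) (ε b)).det,
    q • (kfiE (MvPolynomial (Fin S.M) ℂ) ε * ((Matrix.of fun a b => S.p (ε a) (ε b)).adjugate * (kfiE (MvPolynomial (Fin S.M) ℂ) ε)ᵀ)), ?_,
    fun R _ _ z' δ k1 k2 => ?_⟩
  · rw [map_mul, hd]
    exact mul_ne_zero h1 h3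
  · have e1 : (kfiE (MvPolynomial (Fin S.M) ℂ) ε).map (aeval z') = kfiE R ε := by
      ext i a
      simp only [kfiE, Matrix.map_apply, Matrix.of_apply]
      split_ifs <;> simp
    have e2 : (Matrix.of fun a b => S.p (ε a) (ε b)).adjugate.map (aeval z') =
        (Matrix.of fun a b => S.pm z' (ε a) (ε b)).adjugate := by
      rw [← hm]
      exact RingHom.map_adjugate
        ((aeval z' : MvPolynomial (Fin S.M) ℂ →ₐ[ℂ] R) : MvPolynomial (Fin S.M) ℂ →+* R) _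
    have e3 : (q • (kfiE (MvPolynomial (Fin S.M) ℂ) ε * ((Matrix.of fun a b => S.p (ε a) (ε b)).adjugate *
        (kfiE (MvPolynomial (Fin S.M) ℂ) ε)ᵀ))).map (aeval z') = aeval z' q • (kfiE R ε *
          ((Matrix.of fun a b => S.pm z' (ε a) (ε b)).adjugate * (kfiE R ε)ᵀ)) := by
      rw [← e1, ← e2, ← Matrix.transpose_map, ← Matrix.map_mul, ← Matrix.map_mul]
      ext i j
      simp only [Matrix.map_apply, Matrix.smul_apply, smul_eq_mul, map_mul]
    have k3 := h2 R z' _ k1 (sub_mem (kfi_col h k1 (kfiE R ε *ᵥ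
      ((Matrix.of fun a b => S.pm z' (ε a) (ε b)).adjugate *ᵥ fun a => δ (ε a))))
      ((S.TanS z').smul_mem (Matrix.of fun a b => S.pm z' (ε a) (ε b)).det k2)) fun a => by
        rw [Pi.sub_apply, kfi_mul, Matrix.mulVec_mulVec, Matrix.mul_adjugate, Matrix.smul_mulVec,
          Matrix.one_mulVec]
        exact sub_self _
    rw [smul_sub, sub_eq_zero] at k3
    rw [e3, Matrix.smul_mulVec, Matrix.mulVec_smul, ← Matrix.mulVec_mulVec, ← Matrix.mulVec_mulVec,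
      kfi_tr, k3, map_mul, hd, mul_smul]

theorem Pre.dim (h : Pre S t θ d D g H) (W : Type) [Field W] [Algebra ℂ W] (z : Fin S.M → W)
    (hz : S.On z) (h0 : z ≠ 0) : Module.finrank W (S.TanS z) = d + 1 := by
  obtain ⟨ε, q, h1, h2, -, h3⟩ := kfi_loc h hz h0
  have hb : Function.Bijective ((LinearMap.funLeft W W ε).comp (S.TanS z).subtype) := by
    refine ⟨(injective_iff_map_eq_zero _).2 fun δ hδ => Subtype.ext
      ((smul_eq_zero.1 (h2 W z δ hz δ.2 fun a => congrFun hδ a)).resolve_left h1), fun η => ?_⟩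
    refine ⟨⟨_, kfi_col h hz (kfiE W ε *ᵥ
      ((Matrix.of fun a b => S.pm z (ε a) (ε b))⁻¹ *ᵥ η))⟩, funext fun a => ?_⟩
    refine (kfi_mul ε _ _ a).trans ?_
    rw [Matrix.mulVec_mulVec, Matrix.mul_nonsing_inv _ (Ne.isUnit h3), Matrix.one_mulVec]
  rw [(LinearEquiv.ofBijective _ hb).finrank_eq, Module.finrank_fin_fun]

theorem Pre.pinj (h : Pre S t θ d D g H) (W : Type) [Field W] [Algebra ℂ W] (z δ : Fin S.M → W)
    (hz : S.On z) (h0 : z ≠ 0) (hδ : S.Tan z δ) (h1 : δ ∘ S.e0 = 0) : δ = 0 := by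
  obtain ⟨ε, q, k1, k2, ⟨τ, rfl⟩, -⟩ := kfi_loc h hz h0
  exact (smul_eq_zero.1 (k2 W z δ hz hδ fun a => congrFun h1 (τ a))).resolve_left k1

end Vale.Agent.P292
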