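import Vale.Agent.P292.K.Crd

/-! P292 K/LocA (TASK). The frame `fr g₀ p`. `fr_reg`: `dk k a (D g / g, D) * g ^ k = D (a * g ^ k)`,
`dk k a (1, 0) = k * a`. `om_lift`: direct computation (`Om_apply`, Leibniz, `field_simp`).
`fr_om`: `om_lift`, brackets of regular fields are regular, `g * Om (1, 0) (s, D) = g * θ D`.
`fr_can`: `gram_change` with the coefficients of `fr_span`, expand along the first row
(`Matrix.det_succ_row_zero`). `fr_jac`: with `x = u * t (τ 0)`, row `j.succ` is `y j` times row `0`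
plus `x` times the unit vector (Leibniz, `dual`); see the proof of `can_pl`.
Prefix helper names by `kla_`. -/

open Set Matrix MvPolynomial

noncomputable section

namespace Vale.Agent.P292

open Vale.Agent.P271 Vale.Agent.P276

variable {K : Type} [Field K] [Algebra ℂ K] {N n m d r D : ℕ} {t : Fin (N + 1) → K} {S : Cn K N}
  {θ : Derivation ℂ K K →ₗ[K] K} {v : Fin (N + 1) → ℂ} {g : (Fin (N + 1) → ℂ) → K} {g₀ : K}
  {W : Type} [Field W] [Algebra ℂ W] {τ : Fin (d + 1) → Fin (N + 1)} {f : Fin (d + 1) → Vh K}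
  {H : Fin S.M → Vh K}

variable {p : Fin d → Derivation ℂ K K}

theorem kla_eu (V : Vh K) : Om θ (1, 0) V = θ V.2 := by
  simp only [Om_apply, one_mul, map_zero, mul_zero, sub_zero, Derivation.zero_apply, add_zero,
    zero_lie]

theorem kla_mul (k : ℕ) (x y : K) (V : Vh K) : dk k (y * x) V = x * V.2 y + y * dk k x V := by
  simp only [dk_apply, Derivation.leibniz, smul_eq_mul]
  ring

theorem fr_reg (h : KCrd t v τ p) (h0 : g₀ ≠ 0) (k : ℕ) (a : K) (ha : a * g₀ ^ k ∈ locRing t v)
    (b : Fin (d + 1)) : dk k a (fr g₀ p b) * g₀ ^ k ∈ locRing t v := by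
  refine Fin.cases ?_ (fun j => ?_) b
  · rw [fr, Fin.cons_zero, dk_apply, Derivation.zero_apply, add_zero, mul_one, mul_assoc]
    exact mul_mem (natCast_mem _ k) ha
  · have e : dk k a (fr g₀ p j.succ) * g₀ ^ k = p j (a * g₀ ^ k) := by
      rw [fr, Fin.cons_succ, dk_apply, Derivation.leibniz, Derivation.leibniz_pow]
      simp only [smul_eq_mul, nsmul_eq_mul]
      cases k with
      | zero => simp
      | succ k =>
        rw [Nat.add_sub_cancel, pow_succ]
        field_simp
    rw [e]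
    exact h.reg j _ ha

theorem om_lift (h0 : g₀ ≠ 0) (D D' : Derivation ℂ K K) :
    g₀ * Om θ (D g₀ / g₀, D) (D' g₀ / g₀, D') =
      D (g₀ * θ D') - D' (g₀ * θ D) - g₀ * θ ⁅D, D'⁆ := by
  simp only [Om_apply, Derivation.leibniz, smul_eq_mul]
  field_simp
  ring

theorem fr_om (h : KCrd t v τ p) (h0 : g₀ ≠ 0)
    (hg : ∀ D, IsReg (locRing t v) D → g₀ * θ D ∈ locRing t v) (a b : Fin (d + 1)) :
    g₀ * Om θ (fr g₀ p a) (fr g₀ p b) ∈ locRing t v := by
  refine Fin.cases ?_ (fun i => ?_) a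
  · rw [fr, Fin.cons_zero, kla_eu]
    refine Fin.cases ?_ (fun j => hg _ (h.reg j)) b
    rw [Fin.cons_zero, map_zero, mul_zero]
    exact zero_mem _
  · refine Fin.cases ?_ (fun j => ?_) b
    · rw [fr, Fin.cons_zero, Om_anti, kla_eu, mul_neg]
      exact neg_mem (hg _ (h.reg i))
    · rw [fr, Fin.cons_succ, Fin.cons_succ, om_lift h0]
      refine sub_mem (sub_mem (h.reg i _ (hg _ (h.reg j))) (h.reg j _ (hg _ (h.reg i))))
        (hg _ fun x hx => ?_)
      rw [Derivation.commutator_apply]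
      exact sub_mem (h.reg i _ (h.reg j x hx)) (h.reg j _ (h.reg i x hx))

theorem fr_can (h : KCrd t v τ p) (D : Fin d → Derivation ℂ K K) :
    (gram θ (Fin.cons (1, 0) fun i => (0, D i) : Fin (d + 1) → Vh K)).det =
      (Matrix.of fun i j => D i (t (τ j.succ) / t (τ 0))).det ^ 2 * (gram θ (fr g₀ p)).det := by
  let F : Fin (d + 1) → Vh K := Fin.cons (1, 0) fun i => (0, D i)
  let P : Matrix (Fin (d + 1)) (Fin (d + 1)) K := Matrix.of fun a =>
    Fin.cons ((F a).1 - (F a).2 g₀ / g₀) fun j => (F a).2 (t (τ j.succ) / t (τ 0))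
  have e : P.det = (Matrix.of fun i j => D i (t (τ j.succ) / t (τ 0))).det := by
    have e1 : P.submatrix Fin.succ (Fin.succAbove 0) =
        Matrix.of fun i j => D i (t (τ j.succ) / t (τ 0)) := by
      ext i j
      simp [P, F]
    rw [Matrix.det_succ_row_zero, Fin.sum_univ_succ, e1,
      Finset.sum_eq_zero fun j _ => by simp [P, F]]
    simp [P, F]
  rw [← e]
  exact gram_change P fun a => fr_span h g₀ (F a)

theorem fr_jac (h : KCrd t v τ p) (k : ℕ) (u : K) :
    (Matrix.of fun a b => dk k (u * t (τ a)) (fr g₀ p b)).det = k * (u * t (τ 0)) ^ (d + 1) := by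
  let B : Matrix (Fin (d + 1)) (Fin (d + 1)) K :=
    Matrix.of (Fin.cons (fun b => dk k (u * t (τ 0)) (fr g₀ p b)) fun j b =>
      u * t (τ 0) * (fr g₀ p b).2 (t (τ j.succ) / t (τ 0)))
  have h1 : (Matrix.of fun a b => dk k (u * t (τ a)) (fr g₀ p b)).det = B.det := by
    refine Matrix.det_eq_of_forall_row_eq_smul_add_const
      (Fin.cons 0 fun j => t (τ j.succ) / t (τ 0)) 0 rfl fun i b => ?_
    refine Fin.cases ?_ (fun j => ?_) i
    · simp [B]
    · simp only [B, Matrix.of_apply, Fin.cons_succ, Fin.cons_zero]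
      rw [← kla_mul, mul_left_comm, div_mul_cancel₀ _ h.ne]
  have h2 : B.submatrix (Fin.succAbove 0) Fin.succ = (u * t (τ 0)) • (1 : Matrix _ _ K) := by
    ext j i
    simp [B, fr, h.dual, Matrix.one_apply, eq_comm]
  rw [h1, Matrix.det_succ_column_zero, Fin.sum_univ_succ, h2, Matrix.det_smul, Matrix.det_one,
    Finset.sum_eq_zero fun j _ => by simp [B, fr]]
  simp [B, fr, dk_apply, pow_succ', mul_assoc]

end Vale.Agent.P292
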