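import Vale.Agent.P292.K.LocA

/-! P292 K/LocB (TASK). The Gram determinant is a unit. Let
`F = Fin.cons (1, 0) (Fin.cons (D₀ g / g, D₀) fun i => (w i g / g, w i))`. By `fr_span`,
`F a = ∑ P a b • fr g p b` with `P a b` in the local ring (first coefficient `1` or `0`, the others
`D (y j)`), so `gram_change` gives `g ^ (2 n + 2) det gram F = det P ^ 2 * (g ^ (2 n + 2) det gram fr)`
(`Matrix.det_smul`; determinants of matrices over the subalgebra lie in it: `Matrix.det_apply` and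
`sum_mem`, `prod_mem`). The matrix `g • gram F` has first row `(0, 1, 0, …)`, first column
`(0, -1, 0, …)` and lower block `-(g θ ⁅w i, w j⁆)` (`om_lift`); expanding twice, its determinant is
`det (g θ ⁅w i, w j⁆)` (`Matrix.det_neg`, even size). `exists_locs`: `choose` the `g` of
`IsContact` (use `if OnX` or `Classical` choice on an implication), `exists_equiv`,
`P276.exists_good`, `exists_kcrd`. Prefix helper names by `klb_`. -/

open Set Matrix MvPolynomial

noncomputable section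

namespace Vale.Agent.P292

open Vale.Agent.P271 Vale.Agent.P276

variable {K : Type} [Field K] [Algebra ℂ K] {N n m d r D : ℕ} {t : Fin (N + 1) → K} {S : Cn K N}
  {θ : Derivation ℂ K K →ₗ[K] K} {v : Fin (N + 1) → ℂ} {g : (Fin (N + 1) → ℂ) → K} {g₀ : K}
  {W : Type} [Field W] [Algebra ℂ W] {τ : Fin (d + 1) → Fin (N + 1)} {f : Fin (d + 1) → Vh K}
  {H : Fin S.M → Vh K}

omit [Algebra ℂ K] in
theorem klb_det (M : Matrix (Fin (m + 1 + 1)) (Fin (m + 1 + 1)) K) (h0 : M 0 0 = 0)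
    (h1 : M 0 (Fin.succ 0) = 1) (h2 : ∀ i : Fin m, M 0 i.succ.succ = 0)
    (h3 : M (Fin.succ 0) 0 = -1) (h4 : ∀ i : Fin m, M i.succ.succ 0 = 0) :
    M.det = (Matrix.of fun i j : Fin m => M i.succ.succ j.succ.succ).det := by
  rw [det_succ_row_zero, Fin.sum_univ_succ, Fin.sum_univ_succ, h0, h1, mul_zero, zero_mul,
    Finset.sum_eq_zero fun i _ => by rw [h2, mul_zero, zero_mul], det_succ_column_zero,
    Fin.sum_univ_succ, Finset.sum_eq_zero fun i _ => by
      rw [submatrix_apply, Fin.succ_succAbove_zero, h4, mul_zero, zero_mul],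
    submatrix_apply, Fin.succ_succAbove_zero, h3]
  have e : (M.submatrix Fin.succ (Fin.succ 0).succAbove).submatrix (Fin.succAbove 0) Fin.succ =
      Matrix.of fun i j : Fin m => M i.succ.succ j.succ.succ := by
    ext i j
    simp only [submatrix_apply, Fin.succAbove_zero, Fin.succ_succAbove_succ, of_apply]
  rw [e]
  simp

theorem klb_mem {ι : Type} [Fintype ι] [DecidableEq ι] (O : Subalgebra ℂ K) (M : Matrix ι ι K)
    (h : ∀ i j, M i j ∈ O) : M.det ∈ O := by
  rw [det_apply']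
  exact sum_mem fun σ _ => mul_mem (intCast_mem O _) (prod_mem fun i _ => h _ _)

theorem klb_om (s : K) (D : Derivation ℂ K K) : Om θ (1, 0) (s, D) = θ D := by
  simp [Om_apply]

theorem fr_det {τ : Fin (2 * n + 1 + 1) → Fin (N + 1)} {p : Fin (2 * n + 1) → Derivation ℂ K K}
    (h : KCrd t v τ p) (hg : ∀ D, IsReg (locRing t v) D → g₀ * θ D ∈ locRing t v)
    {D₀ : Derivation ℂ K K} (h0 : IsReg (locRing t v) D₀) (h1 : g₀ * θ D₀ = 1)
    {w : Fin (2 * n) → Derivation ℂ K K} (hw : ∀ i, IsReg (locRing t v) (w i) ∧ θ (w i) = 0)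
    {a : K} (ha : a ∈ locRing t v) (h2 : a * (Matrix.of fun i j => g₀ * θ ⁅w i, w j⁆).det = 1) :
    Un (locRing t v) (g₀ ^ (2 * n + 1 + 1) * (gram θ (fr g₀ p)).det) := by
  have hne : g₀ ≠ 0 := left_ne_zero_of_mul_eq_one h1
  let E : Fin (2 * n + 1) → Derivation ℂ K K := Fin.cons D₀ w
  have hE : ∀ i, IsReg (locRing t v) (E i) := Fin.cases h0 fun i => (hw i).1
  obtain ⟨P, hP, hc⟩ : ∃ P : Matrix (Fin (2 * n + 1 + 1)) (Fin (2 * n + 1 + 1)) K,
      (∀ i j, P i j ∈ locRing t v) ∧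
        (gram θ (fr g₀ E)).det = P.det ^ 2 * (gram θ (fr g₀ p)).det := by
    refine ⟨Matrix.of fun a b => (Fin.cons ((fr g₀ E a).1 - (fr g₀ E a).2 g₀ / g₀) fun j =>
      (fr g₀ E a).2 (t (τ j.succ) / t (τ 0)) : Fin (2 * n + 1 + 1) → K) b, fun a b => ?_,
      gram_change _ fun a => fr_span h g₀ _⟩
    rw [of_apply]
    refine Fin.cases ?_ (fun b => ?_) b <;> refine Fin.cases ?_ (fun a => ?_) a
    · simp [fr]
    · simp [fr]
    · simp [fr]
    · exact hE a _ (h.mem b)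
  have h3 : (g₀ • gram θ (fr g₀ E)).det = (Matrix.of fun i j => g₀ * θ ⁅w i, w j⁆).det := by
    have e1 : ∀ b, (g₀ • gram θ (fr g₀ E)) 0 (Fin.succ b) = g₀ * θ (E b) := fun b =>
      congrArg (g₀ * ·) (klb_om _ _)
    have e2 : ∀ b, (g₀ • gram θ (fr g₀ E)) (Fin.succ b) 0 = -(g₀ * θ (E b)) := fun b => by
      rw [← e1, ← mul_neg_one, mul_neg_one]
      exact (congrArg (g₀ * ·) (Om_anti θ _ _)).trans (mul_neg _ _)
    have e3 : ∀ i, g₀ * θ (E (Fin.succ i)) = 0 := fun i =>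
      (congrArg (g₀ * ·) (hw i).2).trans (mul_zero _)
    rw [klb_det _ ((congrArg (g₀ * ·) (klb_om 1 0)).trans (by simp)) ((e1 0).trans h1)
      (fun i => (e1 _).trans (e3 i)) ((e2 0).trans (congrArg Neg.neg h1))
      fun i => (e2 _).trans (by rw [e3, neg_zero])]
    have e4 : (Matrix.of fun i j : Fin (2 * n) =>
        (g₀ • gram θ (fr g₀ E)) i.succ.succ j.succ.succ) =
        -Matrix.of fun i j => g₀ * θ ⁅w i, w j⁆ := by
      ext i j
      refine (om_lift hne (w i) (w j)).trans ?_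
      simp [(hw i).2, (hw j).2]
    rw [e4, det_neg, Fintype.card_fin, pow_mul, neg_one_sq, one_pow, one_mul]
  have h4 := klb_mem (locRing t v) (g₀ • gram θ (fr g₀ p)) fun a b => fr_om h hne hg a b
  rw [det_smul, Fintype.card_fin] at h3 h4
  have h5 : g₀ ^ (2 * n + 1 + 1) * (gram θ (fr g₀ p)).det * (a * P.det ^ 2) = 1 := by
    rw [← h2, ← h3, hc]
    ring
  refine ⟨left_ne_zero_of_mul_eq_one h5, h4, ?_⟩
  rw [← eq_inv_of_mul_eq_one_right h5]
  exact mul_mem ha (pow_mem (klb_mem _ P hP) 2)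

theorem exists_locs (ht : IsFunctionField t) (hs : IsSmoothOfDim t (2 * n + 1))
    (hθ : IsContact t n θ) : ∃ g, Locs t θ (2 * n + 1) g := by
  choose! g hg using hθ
  refine ⟨g, fun v hv => ?_⟩
  obtain ⟨h1, ⟨D₀, h2, h3⟩, w, h4, a, h5, h6⟩ := hg v hv
  obtain ⟨r, ⟨e⟩⟩ := exists_equiv hs hv
  obtain ⟨G, γ, τ, hG⟩ := P276.exists_good hs e hv
  obtain ⟨p, hp⟩ := exists_kcrd ht hs hG
  have hne : g v ≠ 0 := left_ne_zero_of_mul_eq_one h3
  exact ⟨r, e, G, γ, τ, fr (g v) p, hG, hne, fun V => ⟨_, fr_span hp _ V⟩, fr_reg hp hne,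
    fr_om hp hne h1, fr_det hp h1 h2 h3 h4 h5 h6, fr_can hp, fr_jac hp⟩

end Vale.Agent.P292
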