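import Vale.Agent.P292.K.Ring
import Vale.Agent.P292.K.LocB
import Vale.Agent.P292.K.Fin

/-! P292 block K: the symplectic cone. See `notes/P292.md`. -/

open Polynomial Set Matrix

noncomputable section

namespace Vale.Agent.P292

open Vale.Agent.P271 Vale.Agent.P276

variable {K : Type} [Field K] [Algebra ℂ K] {N n m : ℕ} {t : Fin (N + 1) → K} {S : Cn K N}
  {W : Type} [Field W] [Algebra ℂ W]

theorem exists_cn (hX : Fano t (2 * n + 1) m) (hn : 1 ≤ n) {θ : Derivation ℂ K K →ₗ[K] K}
    (hθ : IsContact t n θ) : ∃ S : Cn K N, S.Ok t n m ∧ S.Link θ := by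
  obtain ⟨g, hL⟩ := exists_locs hX.ff hX.sm hθ
  obtain ⟨u, hd⟩ := exists_gd hX hL
  obtain ⟨S, rfl, hG, hG1⟩ := exists_gens hX.ff hX.sm hd
  obtain ⟨v, hv, -⟩ := exists_spec (t := t) (x := t) (fun _ _ _ h => h) hX.ff.1
  obtain ⟨_, _, _, _, _, _, -, hl⟩ := hL v hv
  choose H hH using fun i => exists_ham hl (dk (S.w i) (S.c i))
  have h1 : ∀ i j, dk (S.w i) (S.c i) (H j) ∈ Rk t g (S.w i + S.w j - 1) := fun i j v' hv' => by
    obtain ⟨_, _, _, _, _, _, -, hl'⟩ := hL v' hv'
    exact ham_reg hl' (hG.wpos j) (hH j) (hG.mem j v' hv') (hG.mem i v' hv')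
  choose q hq hq' using fun i j => hG.gen _ _ (h1 i j)
  let S' : Cn K N := { S with p := fun i j => MvPolynomial.C (2⁻¹ : ℂ) * (q i j - q j i) }
  have hP : Pre S' t θ (2 * n + 1) (m * (n + 1)) g H :=
    { ff := hX.ff
      sm := hX.sm
      gd := hd
      gens := ⟨hG.wpos, hG.we0, hG.ce0, hG.mem, hG.gen, hG.ne⟩
      locs := hL
      ham := hH
      hom := fun i j => by
        have h2 := hq j i
        rw [add_comm (S.w j)] at h2
        simpa using (MvPolynomial.isWeightedHomogeneous_C S.w (2⁻¹ : ℂ)).mul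
          ((MvPolynomial.weightedHomogeneousSubmodule ℂ S.w _).sub_mem (hq i j) h2)
      alt := fun i j => by
        simp only [S']
        ring
      val := fun i j => by
        have h2 : dk (S.w j) (S.c j) (H i) = -dk (S.w i) (S.c i) (H j) := by
          rw [← hH, ← hH, Om_anti]
        have h3 : (2 : K) ≠ 0 := by
          have := charZero_of_injective_algebraMap (algebraMap ℂ K).injective
          exact two_ne_zero
        simp only [S', map_mul, map_sub, hq', h2, MvPolynomial.aeval_C, map_inv₀, map_ofNat]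
        field_simp
        ring }
  exact ⟨S', ⟨hX, hn, hG.wpos, hG.we0, hd.une, hG.ce0, hP.hom, hP.alt, hP.jac, hP.tanp, hP.inv,
    hP.dim, hP.pinj, hG1.int, hG1.lift, hG1.uniq, hG1.free, hG1.nrm⟩, hP.link⟩

end Vale.Agent.P292
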