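import Vale.Agent.P292.K.Skew

/-! P292 K/U (TASK). `D`, `u₀` from `AntiCanonical`. `Γ = det gram (Fin.cons (1, 0) fun i => (0, D i))`
is a square `q * q` (`isSquare_det_skew`, `Om_anti`). At `v`: `Δ = det (D i (y j))`,
`Loc.can`, `Loc.det`: `q ^ 2 g ^ (2 n + 2) = Δ ^ 2 * unit`; `can_span`, `hca_eps` give
`Δ ^ m * t j = ε * u₀` with a unit `ε` whenever `v j ≠ 0` (so `Δ ≠ 0`). `un_root` (by `normal`,
`IsIntegral.of_pow`) shows that `q g ^ (n + 1) / Δ` is a unit. Take `u = q ^ m / u₀`; `q ≠ 0` needs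
one point of `X` (`exists_spec` applied to `t` itself). Prefix helper names by `ku_`. -/

open Set Matrix MvPolynomial

noncomputable section

namespace Vale.Agent.P292

open Vale.Agent.P271 Vale.Agent.P276

variable {K : Type} [Field K] [Algebra ℂ K] {N n m d r D : ℕ} {t : Fin (N + 1) → K} {S : Cn K N}
  {θ : Derivation ℂ K K →ₗ[K] K} {v : Fin (N + 1) → ℂ} {g : (Fin (N + 1) → ℂ) → K} {g₀ : K}
  {W : Type} [Field W] [Algebra ℂ W] {τ : Fin (d + 1) → Fin (N + 1)} {f : Fin (d + 1) → Vh K}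
  {H : Fin S.M → Vh K}

theorem Un.mul {O : Subalgebra ℂ K} {a b : K} (ha : Un O a) (hb : Un O b) : Un O (a * b) := by
  exact ⟨mul_ne_zero ha.1 hb.1, mul_mem ha.2.1 hb.2.1, by
    rw [mul_inv]
    exact mul_mem ha.2.2 hb.2.2⟩

theorem Un.inv {O : Subalgebra ℂ K} {a : K} (ha : Un O a) : Un O a⁻¹ := by
  exact ⟨inv_ne_zero ha.1, ha.2.2, by
    rw [inv_inv]
    exact ha.2.1⟩

theorem Un.pow {O : Subalgebra ℂ K} {a : K} (ha : Un O a) (k : ℕ) : Un O (a ^ k) := by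
  exact ⟨pow_ne_zero k ha.1, pow_mem ha.2.1 k, by
    rw [← inv_pow]
    exact pow_mem ha.2.2 k⟩

theorem mem_root (ht : IsFunctionField t) (hs : IsSmoothOfDim t d) (hv : OnX t v) {a : K} {k : ℕ}
    (hk : 0 < k) (h : a ^ k ∈ locRing t v) : a ∈ locRing t v := by
  exact normal ht hs hv
    (IsIntegral.of_pow hk (isIntegral_algebraMap (x := (⟨_, h⟩ : locRing t v))))

theorem un_root (ht : IsFunctionField t) (hs : IsSmoothOfDim t d) (hv : OnX t v) {a : K} {k : ℕ}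
    (hk : 0 < k) (h : Un (locRing t v) (a ^ k)) : Un (locRing t v) a := by
  refine ⟨fun h0 => h.1 (by rw [h0, zero_pow hk.ne']), mem_root ht hs hv hk h.2.1,
    mem_root ht hs hv hk ?_⟩
  rw [inv_pow]
  exact h.2.2

theorem exists_gd (hX : Fano t (2 * n + 1) m) (h : Locs t θ (2 * n + 1) g) :
    ∃ u, Gd t (m * (n + 1)) u g := by
  obtain ⟨D, -, u₀, hu, hD⟩ := hX.ac
  obtain ⟨q, hq⟩ := isSquare_det_skew
    (gram θ (Fin.cons (1, 0) fun i => (0, D i) : Fin (2 * n + 1 + 1) → Vh K))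
    (Matrix.ext fun a b => Om_anti θ _ _)
  have key : ∀ v, OnX t v → ∀ j, v j ≠ 0 →
      Un (locRing t v) (q ^ m / u₀ * t j * g v ^ (m * (n + 1))) := by
    intro v hv j hj
    obtain ⟨r, e, G, γ, τ, f, hG, hL⟩ := h v hv
    obtain ⟨w, h1, h2⟩ := hD v hv
    rw [can_span hG D] at h1
    obtain ⟨ε, e0, e1, e2, e3⟩ := hca_eps hv hj hu h1.symm h2
    have h3 := hL.can D
    have h4 := hL.det
    rw [hq] at h3
    generalize (Matrix.of fun i j => D i (t (τ j.succ) / t (τ 0))).det = Δ at e3 h3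
    have hΔ : Δ ≠ 0 := by
      rintro rfl
      rw [zero_pow hX.pos.ne', zero_mul] at e3
      exact mul_ne_zero e0 hu e3.symm
    have h5 : (q * g v ^ (n + 1) / Δ) ^ 2 = g v ^ (2 * n + 1 + 1) * (gram θ f).det := by
      rw [div_pow, mul_pow, sq q, h3]
      field_simp
      ring
    rw [← h5] at h4
    have h6 := ((un_root hX.ff hX.sm hv two_pos h4).pow m).mul ⟨e0, e1, e2⟩
    have h7 : (q * g v ^ (n + 1) / Δ) ^ m * ε = q ^ m / u₀ * t j * g v ^ (m * (n + 1)) := by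
      rw [(eq_div_iff hu).2 e3.symm, div_pow, mul_pow, ← pow_mul, mul_comm (n + 1) m]
      field_simp
    rwa [h7] at h6
  obtain ⟨v, hv, -⟩ := exists_spec (t := t) (x := t) (fun _ _ _ h0 => h0) hX.ff.1
  obtain ⟨j, hj⟩ := Function.ne_iff.1 hv.1
  exact ⟨q ^ m / u₀, Nat.mul_pos hX.pos n.succ_pos,
    left_ne_zero_of_mul (left_ne_zero_of_mul (key v hv j hj).1), key⟩

end Vale.Agent.P292
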