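import Vale.Agent.P292.K.Tr
import Vale.Agent.P292.K.U

/-! P292 K/Nv (TASK). `nv`: pick `l` with `v l ≠ 0`; `ε = (aeval c P * g ^ k) ^ D / (u * t l * g ^ D) ^ k` is a
unit, `can_unit` gives forms `A`, `B` of degree `f` not vanishing at `v` with `ε * B t = A t`; the
polynomial `P ^ D * rename e0 B - X (e0 l) ^ k * rename e0 A` is weighted homogeneous of degree
`(k + f) * D` and vanishes at `c` (`wh_e0`, `aeval_e0`), so at `z`; `Spec` for `A` and `X l`.
`sig`: `can_unit` for `ε = u * t l * g v ^ D` gives `ε * B t = A t` of degree `e`; put `Q₀ = A`,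
`a = u ^ e * A t / g v`; then `a ^ D = u ^ (e * D + 1) * (X l * B * A ^ (D - 1)) t`, so at every point
`v'`, `(a * g v' ^ (e * D + 1)) ^ D` is a form in the `u * t j * g v' ^ D`, which lie in the local ring
(`gd_mem`: unit times `t j / t l`); `mem_root`. `loc_quot`: closure of such quotients under sums and
products (`Algebra.adjoin_induction`), or see `can_unit`. Prefix helper names by `knv_`. -/

open Set Matrix MvPolynomial

noncomputable section

namespace Vale.Agent.P292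

open Vale.Agent.P271 Vale.Agent.P276

variable {K : Type} [Field K] [Algebra ℂ K] {N n m d r D : ℕ} {t : Fin (N + 1) → K} {S : Cn K N}
  {θ : Derivation ℂ K K →ₗ[K] K} {v : Fin (N + 1) → ℂ} {g : (Fin (N + 1) → ℂ) → K} {g₀ : K}
  {W : Type} [Field W] [Algebra ℂ W] {τ : Fin (d + 1) → Fin (N + 1)} {f : Fin (d + 1) → Vh K}
  {H : Fin S.M → Vh K}

theorem knv_form {O : Subalgebra ℂ K} {s : K} (h : ∀ j, s * t j ∈ O) {F : MP N} {e : ℕ}
    (hF : F.IsHomogeneous e) : s ^ e * aeval t F ∈ O := by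
  rw [← aeval_smul_hom hF]
  clear hF
  induction F using MvPolynomial.induction_on with
  | C a => rw [aeval_C]; exact O.algebraMap_mem a
  | add p q hp hq => rw [map_add]; exact add_mem hp hq
  | mul_X p i hp => rw [map_mul, aeval_X]; exact mul_mem hp (h i)

theorem gd_mem {u : K} (h : Gd t D u g) (hv : OnX t v) (j : Fin (N + 1)) :
    u * t j * g v ^ D ∈ locRing t v := by
  obtain ⟨l, hl⟩ := Function.ne_iff.1 hv.1
  have hl : v l ≠ 0 := hl
  have ht := hv.ne hl
  have h1 : t j / t l ∈ locRing t v := Algebra.subset_adjoin ⟨1, X j, X l, isHomogeneous_X _ _,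
    isHomogeneous_X _ _, by rwa [eval_X], by rw [aeval_X, aeval_X, div_mul_cancel₀ _ ht]⟩
  have h2 := mul_mem (h.unit v hv l hl).2.1 h1
  rwa [show u * t l * g v ^ D * (t j / t l) = u * t j * g v ^ D by field_simp] at h2

theorem loc_quot (hv : OnX t v) {a : K} (ha : a ∈ locRing t v) :
    ∃ (e : ℕ) (A B : MP N), A.IsHomogeneous e ∧ B.IsHomogeneous e ∧ eval v B ≠ 0 ∧
      a * aeval t B = aeval t A := by
  induction ha using Algebra.adjoin_induction with
  | mem a ha => exact ha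
  | algebraMap c =>
    exact ⟨0, C c, 1, isHomogeneous_C _ _, isHomogeneous_one _ _, by simp, by simp⟩
  | add a b _ _ ha hb =>
    obtain ⟨e, A, B, hA, hB, h1, h2⟩ := ha
    obtain ⟨e', A', B', hA', hB', h1', h2'⟩ := hb
    refine ⟨e + e', A * B' + B * A', B * B', (hA.mul hB').add (hB.mul hA'), hB.mul hB', ?_, ?_⟩
    · rw [map_mul]
      exact mul_ne_zero h1 h1'
    · rw [map_add, map_mul, map_mul, map_mul, ← h2, ← h2']
      ring
  | mul a b _ _ ha hb =>
    obtain ⟨e, A, B, hA, hB, h1, h2⟩ := ha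
    obtain ⟨e', A', B', hA', hB', h1', h2'⟩ := hb
    refine ⟨e + e', A * A', B * B', hA.mul hA', hB.mul hB', ?_, ?_⟩
    · rw [map_mul]
      exact mul_ne_zero h1 h1'
    · rw [map_mul, map_mul, ← h2, ← h2']
      ring

theorem sig (ht : IsFunctionField t) (hs : IsSmoothOfDim t d) {u : K} (h : Gd t D u g)
    (hv : OnX t v) : ∃ (e : ℕ) (Q₀ : MP N), Q₀.IsHomogeneous e ∧ eval v Q₀ ≠ 0 ∧
      u ^ e * aeval t Q₀ / g v ∈ Rk t g (e * D + 1) := by
  obtain ⟨l, hl⟩ := Function.ne_iff.1 hv.1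
  have hu := h.unit v hv l hl
  obtain ⟨e, A, B, hA, hB, hA0, -, e1⟩ := can_unit hv hu.1 hu.2.1 hu.2.2
  refine ⟨e, A, hA, hA0, fun v' hv' => mem_root ht hs hv' h.pos ?_⟩
  obtain ⟨D', rfl⟩ := Nat.exists_eq_succ_of_ne_zero h.pos.ne'
  have g0 : g v ≠ 0 := fun h0 => hu.1 (by rw [h0, zero_pow h.pos.ne', mul_zero])
  have h1 := knv_form (s := u * g v' ^ D'.succ) (t := t) (O := locRing t v')
    (fun j => by rw [mul_right_comm]; exact gd_mem h hv' j)
    (((isHomogeneous_X ℂ l).mul hB).mul (hA.pow D'))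
  have e2 : aeval t A / g v ^ (D' + 1) = u * t l * aeval t B := by
    rw [← e1, div_eq_iff (pow_ne_zero _ g0), Nat.succ_eq_add_one]
    ring
  rw [map_mul, map_mul, map_pow, aeval_X] at h1
  have e3 : (u ^ e * aeval t A / g v * g v' ^ (e * D'.succ + 1)) ^ D'.succ =
      u ^ (e * (D' + 1)) * aeval t A ^ D' * (aeval t A / g v ^ (D' + 1)) *
        g v' ^ ((e * (D' + 1) + 1) * (D' + 1)) := by
    rw [Nat.succ_eq_add_one, mul_pow, div_pow, mul_pow, ← pow_mul, ← pow_mul]
    ring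
  rw [e3, e2]
  refine (congrArg (· ∈ locRing t v') ?_).mp h1
  rw [Nat.succ_eq_add_one]
  ring

theorem nv (hd : Gd t D S.u g) (h : Gens S t d D g) (hv : OnX t v) {P : MvPolynomial (Fin S.M) ℂ}
    {k : ℕ} (hP : P.IsWeightedHomogeneous S.w k) (hu : Un (locRing t v) (aeval S.c P * g v ^ k))
    {z : Fin S.M → W} (hz : S.On z) (hs : Spec v (z ∘ S.e0)) : aeval z P ≠ 0 := by
  obtain ⟨l, hl⟩ := Function.ne_iff.1 hv.1
  have hl : v l ≠ 0 := hl
  have h1 := hd.unit v hv l hl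
  have h2 := (hu.pow D).mul (h1.pow k).inv
  obtain ⟨f, A, B, hA, hB, hA0, -, e1⟩ := can_unit hv h2.1 h2.2.1 h2.2.2
  have g0 : g v ≠ 0 := fun h0 => h1.1 (by rw [h0, zero_pow hd.pos.ne', mul_zero])
  have w1 := (hP.pow D).mul (wh_e0 h hB)
  have w2 := ((isWeightedHomogeneous_X ℂ S.w (S.e0 l)).pow k).mul (wh_e0 h hA)
  rw [h.we0, smul_eq_mul, mul_comm k] at w2
  rw [smul_eq_mul] at w1
  have e2 := hz _ _ (w1.sub w2) (by
    have t0 := hv.ne hl
    have u0 := hd.une
    rw [map_sub, map_mul, map_mul, map_pow, map_pow, aeval_X, aeval_e0 h hA, aeval_e0 h hB, h.ce0,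
      ← e1]
    field_simp
    ring)
  intro h0
  rw [map_sub, map_mul, map_mul, map_pow, map_pow, h0, zero_pow hd.pos.ne', zero_mul, zero_sub,
    neg_eq_zero, aeval_X, aeval_rename] at e2
  have h3 := hs 1 (X l) (isHomogeneous_X _ _) (by rwa [eval_X])
  rw [aeval_X] at h3
  exact mul_ne_zero (pow_ne_zero k h3) (hs f A hA hA0) e2

end Vale.Agent.P292
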