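import Vale.Agent.P292.K.RInt
import Vale.Agent.P292.A.Den

/-! P292 K/RFin (TASK). The section ring is finitely generated. Work in `F = RatFunc K` with the images
`x j` of `zh (fun _ => D) fun j => u * t j`, `A = adjoin ℂ (range x)`. Take a point `v` (`exists_spec` at
`t`) and `σ = monomial (e * D + 1) a₀`, `a₀ ≠ 0` from `sig`. `A₁ = adjoin ℂ (insert σ (range x))` is a finite
`A`-module (`int_Rh`, `IsIntegral.fg_adjoin_singleton`). The intermediate field generated by `A₁` contains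
`K` (`ht.2`: `a = P x / Q x`, `zh_homog`), `X ^ D` and `X`, so all polynomials; hence each of them is a
quotient of elements of `A₁` (`IntermediateField.mem_adjoin_iff_div`). `den_sub` gives `δ ≠ 0` with
`δ * a ∈ A₁` for all `a ∈ Rh`. So `Rh`, an `A`-module (`gd_mem`, `mono_mem_Rh`), embeds in a noetherian
`A`-module; module generators together with the `x j` generate it as an algebra. `rfi_abs` is the
abstract part. Helper names start with `rfi_`. -/

open Set Matrix MvPolynomial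

noncomputable section

namespace Vale.Agent.P292

open Vale.Agent.P271 Vale.Agent.P276

variable {K : Type} [Field K] [Algebra ℂ K] {N n m d r D : ℕ} {t : Fin (N + 1) → K} {S : Cn K N}
  {θ : Derivation ℂ K K →ₗ[K] K} {v : Fin (N + 1) → ℂ} {g : (Fin (N + 1) → ℂ) → K} {g₀ : K}
  {W : Type} [Field W] [Algebra ℂ W] {τ : Fin (d + 1) → Fin (N + 1)} {f : Fin (d + 1) → Vh K}
  {H : Fin S.M → Vh K}

theorem rfi_abs {F : Type} [Field F] [Algebra ℂ F] {A B : Subalgebra ℂ F} (hA : A.FG) (hle : A ≤ B)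
    (hi : ∀ b ∈ B, IsIntegral A b) {σ : F} (hσ : σ ∈ B)
    (hq : ∀ b ∈ B, b ∈ IntermediateField.adjoin ℂ (insert σ (A : Set F))) : B.FG := by
  classical
  obtain ⟨s, hs⟩ := hA
  obtain ⟨A₁, hA₁⟩ : ∃ A₁, A₁ = Algebra.adjoin ℂ (insert σ (A : Set F)) := ⟨_, rfl⟩
  have e1 : Algebra.adjoin ℂ ((insert σ s : Finset F) : Set F) = A₁ := by
    rw [hA₁, ← hs, Finset.coe_insert, Algebra.adjoin_insert_adjoin]
  have l1 : A ≤ A₁ := fun a ha => hA₁ ▸ Algebra.subset_adjoin (mem_insert_of_mem _ ha)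
  have l2 : A₁ ≤ B := hA₁ ▸ Algebra.adjoin_le (insert_subset hσ hle)
  have := isNoetherianRing_of_fg (S := A₁) ⟨_, e1⟩
  obtain ⟨δ, hδ, H⟩ := den_sub A₁ ⟨_, e1⟩
  have hδ' : (δ : F) ≠ 0 := fun h => hδ (Subtype.ext h)
  have key : ∀ b ∈ B, (δ : F) * b ∈ A₁ := fun b hb => by
    refine H b ?_ ((hi b hb).map_of_comp_eq (Subalgebra.inclusion l1).toRingHom (RingHom.id F) rfl)
    obtain ⟨p, hp, q, hq', rfl⟩ := IntermediateField.mem_adjoin_iff_div.1 (hq b hb)
    rw [← hA₁] at hp hq'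
    by_cases h0 : q = 0
    · exact ⟨1, one_mem _, one_ne_zero, by simp [h0]⟩
    · exact ⟨q, hq', h0, by rwa [mul_div_cancel₀ _ h0]⟩
  let M : Submodule A₁ F :=
    { carrier := B
      add_mem' := add_mem
      zero_mem' := zero_mem B
      smul_mem' := fun c b hb => mul_mem (l2 c.2) hb }
  obtain ⟨T, hT⟩ : M.FG := (Submodule.fg_span_singleton (δ : F)⁻¹).of_le fun b hb =>
    Submodule.mem_span_singleton.2 ⟨⟨_, key b hb⟩, by
      change (δ : F) * b * (δ : F)⁻¹ = b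
      rw [mul_comm (δ : F), mul_inv_cancel_right₀ hδ']⟩
  refine ⟨insert σ s ∪ T, le_antisymm (Algebra.adjoin_le ?_) fun b hb => ?_⟩
  · rw [Finset.coe_union]
    exact union_subset (fun a ha => l2 (e1 ▸ Algebra.subset_adjoin ha))
      fun a ha => (hT ▸ Submodule.subset_span ha : a ∈ M)
  · have l3 : A₁ ≤ Algebra.adjoin ℂ ((insert σ s ∪ T : Finset F) : Set F) :=
      e1 ▸ Algebra.adjoin_mono (Finset.coe_subset.2 Finset.subset_union_left)
    have hb' : b ∈ Submodule.span A₁ (T : Set F) := hT.symm ▸ (hb : b ∈ M)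
    clear hb
    induction hb' using Submodule.span_induction with
    | mem x hx => exact Algebra.subset_adjoin (Finset.mem_coe.2 (Finset.mem_union_right _ hx))
    | zero => exact zero_mem _
    | add x y _ _ h1 h2 => exact add_mem h1 h2
    | smul c x _ h1 => exact mul_mem (l3 c.2) h1

theorem rfi_map {R F : Type} [CommRing R] [Algebra ℂ R] [Field F] [Algebra ℂ F] (φ : R →ₐ[ℂ] F)
    (hφ : Function.Injective φ) {A B : Subalgebra ℂ R} (hA : A.FG) (hle : A ≤ B)
    (hi : ∀ b ∈ B, IsIntegral A b) {σ : R} (hσ : σ ∈ B)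
    (hq : ∀ L : Subalgebra ℂ R, (∀ p q, q ≠ 0 → q ∈ L → p * q ∈ L → p ∈ L) → A ≤ L → σ ∈ L →
      ∀ p, p ∈ L) : B.FG := by
  refine Subalgebra.fg_of_fg_map _ φ hφ (rfi_abs (hA.map φ) (Subalgebra.map_mono hle) ?_
    (σ := φ σ) ⟨_, hσ, rfl⟩ ?_)
  · rintro _ ⟨a, ha, rfl⟩
    exact (hi a ha).map_of_comp_eq (φ.subalgebraMap A).toRingHom φ.toRingHom rfl
  · rintro _ ⟨a, -, rfl⟩
    refine hq ((IntermediateField.adjoin ℂ (insert (φ σ) (A.map φ : Set F))).toSubalgebra.comap φ)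
      (fun p q h0 hq hpq => ?_) (fun a ha => ?_) ?_ a
    · have h1 : φ q ≠ 0 := (map_ne_zero_iff φ hφ).2 h0
      have h2 : φ (p * q) / φ q ∈ IntermediateField.adjoin ℂ (insert (φ σ) (A.map φ : Set F)) :=
        IntermediateField.div_mem _ hpq hq
      rwa [map_mul, mul_div_cancel_right₀ _ h1] at h2
    · exact IntermediateField.subset_adjoin ℂ _ (mem_insert_of_mem _ ⟨_, ha, rfl⟩)
    · exact IntermediateField.subset_adjoin ℂ _ (mem_insert _ _)

theorem rfi_aeval (u : K) {P : MP N} {e : ℕ} (hP : P.IsHomogeneous e) :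
    aeval (zh (fun _ => D) fun j => u * t j) P =
      Polynomial.C (aeval t P) * (Polynomial.C u * Polynomial.X ^ D) ^ e := by
  have h1 : (zh (fun _ => D) fun j => u * t j) = fun j =>
      (Polynomial.CAlgHom : K →ₐ[ℂ] Polynomial K) (t j) * (Polynomial.C u * Polynomial.X ^ D) := by
    funext j
    rw [zh, ← Polynomial.C_mul_X_pow_eq_monomial, map_mul]
    exact (mul_assoc _ _ _).trans (mul_left_comm _ _ _)
  rw [h1, aeval_mul_homog hP, ← comp_aeval_apply]
  rfl

theorem rfi_all (ht : IsFunctionField t) {u a₀ : K} (hu : u ≠ 0) (ha : a₀ ≠ 0) {e : ℕ}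
    {L : Subalgebra ℂ (Polynomial K)} (hL : ∀ p q, q ≠ 0 → q ∈ L → p * q ∈ L → p ∈ L)
    (hx : ∀ P : MP N, aeval (zh (fun _ => D) fun j => u * t j) P ∈ L)
    (hσ : Polynomial.monomial (e * D + 1) a₀ ∈ L) (p : Polynomial K) : p ∈ L := by
  have hy : Polynomial.C u * Polynomial.X ^ D ≠ 0 :=
    mul_ne_zero (Polynomial.C_ne_zero.2 hu) (pow_ne_zero _ Polynomial.X_ne_zero)
  have hC : ∀ a : K, Polynomial.C a ∈ L := fun a => by
    obtain ⟨k, P, Q, hP, hQ, h0, h1⟩ := ht.2 a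
    refine hL _ _ ?_ (hx Q) ?_
    · rw [rfi_aeval u hQ]
      exact mul_ne_zero (Polynomial.C_ne_zero.2 h0) (pow_ne_zero _ hy)
    · rw [rfi_aeval u hQ, ← mul_assoc, ← map_mul, h1, ← rfi_aeval u hP]
      exact hx P
  obtain ⟨l, hl⟩ := Function.ne_iff.1 ht.1
  have hXD : Polynomial.X ^ D ∈ L := by
    refine hL _ _ (Polynomial.C_ne_zero.2 (mul_ne_zero hu hl)) (hC _) ?_
    have := hx (X l)
    rwa [aeval_X, zh, ← Polynomial.C_mul_X_pow_eq_monomial, mul_comm] at this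
  have hX : Polynomial.X ∈ L := by
    refine hL _ _ (mul_ne_zero (Polynomial.C_ne_zero.2 ha) (pow_ne_zero e
      (pow_ne_zero D Polynomial.X_ne_zero))) (mul_mem (hC _) (pow_mem hXD e)) ?_
    rwa [← Polynomial.C_mul_X_pow_eq_monomial, pow_succ, mul_comm e, pow_mul, ← mul_assoc,
      mul_comm] at hσ
  induction p using Polynomial.induction_on' with
  | add p q hp hq => exact add_mem hp hq
  | monomial k a =>
    rw [← Polynomial.C_mul_X_pow_eq_monomial]
    exact mul_mem (hC a) (pow_mem hX k)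

theorem Rh_fg (ht : IsFunctionField t) (hs : IsSmoothOfDim t d) {u : K} (h : Gd t D u g) :
    (Rh t g).FG := by
  obtain ⟨v, hv, -⟩ := exists_spec (t := t) (x := t) (fun _ _ _ h => h) ht.1
  obtain ⟨e, Q₀, hQ, hQv, hσ⟩ := sig ht hs h hv
  obtain ⟨j, hj⟩ := Function.ne_iff.1 hv.1
  have hg : g v ≠ 0 := fun h0 => (h.unit v hv j hj).1 (by rw [h0, zero_pow h.pos.ne', mul_zero])
  have ha : u ^ e * aeval t Q₀ / g v ≠ 0 :=
    div_ne_zero (mul_ne_zero (pow_ne_zero _ h.une) fun h0 => hQv (hv.2 e Q₀ hQ h0)) hg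
  refine rfi_map (IsScalarTower.toAlgHom ℂ (Polynomial K) (FractionRing (Polynomial K)))
    (IsFractionRing.injective (Polynomial K) _)
    (A := Algebra.adjoin ℂ (range (zh (fun _ => D) fun j => u * t j)))
    ⟨(finite_range _).toFinset, by rw [Finite.coe_toFinset]⟩ (Algebra.adjoin_le ?_)
    (fun a ha => int_Rh ht h ha) (mono_mem_Rh hσ)
    fun L hL hA hσ' => rfi_all (D := D) (e := e) ht h.une ha hL (fun P => hA ?_) hσ'
  · rintro _ ⟨j, rfl⟩
    exact mono_mem_Rh fun v hv => gd_mem h hv j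
  · rw [Algebra.adjoin_range_eq_range_aeval]
    exact ⟨P, rfl⟩

end Vale.Agent.P292
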