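import Vale.Agent.P292.K.RFin

/-! P292 K/RGen (TASK). Homogeneous generators. Let `s` be a finite set generating `Rh` and `b` a bound of the
degrees. Index type `ι = Fin (N + 1) ⊕ s × Fin b` with weights `D`, `k + 1` and values `u * t j`,
`p.coeff (k + 1)`; transport to `Fin M` by `Fintype.equivFin`. Each `p ∈ s` is a constant (`Rk_zero`) plus
a sum of the `zh w c i`, so `Rh ≤ adjoin ℂ (range (zh w c))`. For `a ∈ Rk k`, `monomial k a = aeval (zh w c) Q`
(`mono_mem_Rh`, `Algebra.adjoin_range_eq_range_aeval`); take the component of degree `k` (`coeff_zh`,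
`weightedHomogeneousComponent_isWeightedHomogeneous`). Helper names start with `rge_`. -/

open Set Matrix MvPolynomial

noncomputable section

namespace Vale.Agent.P292

open Vale.Agent.P271 Vale.Agent.P276

variable {K : Type} [Field K] [Algebra ℂ K] {N n m d r D : ℕ} {t : Fin (N + 1) → K} {S : Cn K N}
  {θ : Derivation ℂ K K →ₗ[K] K} {v : Fin (N + 1) → ℂ} {g : (Fin (N + 1) → ℂ) → K} {g₀ : K}
  {W : Type} [Field W] [Algebra ℂ W] {τ : Fin (d + 1) → Fin (N + 1)} {f : Fin (d + 1) → Vh K}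
  {H : Fin S.M → Vh K}

theorem exists_gens0 (ht : IsFunctionField t) (hs : IsSmoothOfDim t d) {u : K} (h : Gd t D u g) :
    ∃ S : Cn K N, S.u = u ∧ Gens0 S t D g := by
  classical
  obtain ⟨s, hs'⟩ := Rh_fg ht hs h
  have hm : ∀ p ∈ s, p ∈ Rh t g := fun p hp => hs' ▸ Algebra.subset_adjoin hp
  obtain ⟨b, hb⟩ : ∃ b, ∀ p ∈ s, p.natDegree ≤ b :=
    ⟨s.sup Polynomial.natDegree, fun p hp => Finset.le_sup (f := Polynomial.natDegree) hp⟩
  let w : Fin (N + 1) ⊕ s × Fin b → ℕ := Sum.elim (fun _ => D) fun q => q.2 + 1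
  let c : Fin (N + 1) ⊕ s × Fin b → K :=
    Sum.elim (fun j => u * t j) fun q => q.1.1.coeff (q.2 + 1)
  let e := Fintype.equivFin (Fin (N + 1) ⊕ s × Fin b)
  have hc : ∀ i, 0 < w i ∧ c i ∈ Rk t g (w i) := by
    rintro (j | q)
    · exact ⟨h.pos, fun v hv => gd_mem h hv j⟩
    · exact ⟨Nat.succ_pos _, hm _ q.1.2 _⟩
  have hle : Rh t g ≤ Algebra.adjoin ℂ (range (zh (w ∘ e.symm) (c ∘ e.symm))) := by
    rw [← hs']
    refine Algebra.adjoin_le fun p hp => ?_
    rw [p.as_sum_range' (b + 1) (Nat.lt_succ_of_le (hb p hp)), Finset.sum_range_succ']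
    refine add_mem (sum_mem fun k hk => Algebra.subset_adjoin
      ⟨e (Sum.inr (⟨p, hp⟩, ⟨k, Finset.mem_range.1 hk⟩)), ?_⟩) ?_
    · simp only [zh, Function.comp_apply, Equiv.symm_apply_apply, w, c, Sum.elim_inr]
    · obtain ⟨a, ha⟩ := Rk_zero ht h (hm p hp 0)
      rw [← ha, Polynomial.monomial_zero_left, ← Polynomial.algebraMap_apply]
      exact algebraMap_mem _ a
  refine ⟨⟨_, w ∘ e.symm, c ∘ e.symm, fun j => e (Sum.inl j), u, fun _ _ => 0⟩, rfl,
    fun i => (hc _).1, fun j => ?_, fun j => ?_, fun i => (hc _).2, fun k a ha => ?_⟩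
  · simp only [Function.comp_apply, Equiv.symm_apply_apply, w, Sum.elim_inl]
  · simp only [Function.comp_apply, Equiv.symm_apply_apply, c, Sum.elim_inl]
  · have h1 := hle (mono_mem_Rh ha)
    rw [Algebra.adjoin_range_eq_range_aeval] at h1
    obtain ⟨Q, hQ⟩ := h1
    refine ⟨_, weightedHomogeneousComponent_isWeightedHomogeneous k Q, ?_⟩
    have h2 := coeff_zh (w ∘ e.symm) (c ∘ e.symm) Q k
    have h3 : aeval (zh (w ∘ e.symm) (c ∘ e.symm)) Q = Polynomial.monomial k a := hQ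
    rw [h3, Polynomial.coeff_monomial_same] at h2
    exact h2.symm

end Vale.Agent.P292
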