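import Vale.Agent.P292.K.RTr
import Vale.Agent.P292.K.Nv

/-! P292 K/RInt (TASK). The section ring is integral over `A = ℂ[x]`, `x = zh (fun _ => D) fun j => u * t j`.
`rin_chart`: for `b ∈ Rk (k * D)` and `t l ≠ 0`, `b / (u * t l) ^ k` lies in the local rings with `v l ≠ 0`
(`Gd.unit`), so in `chartRing t l` (`reg_chart_one`), so `b / (u t l) ^ k * t l ^ e = P t` for a form `P` of
degree `e` (`chart_exists` or `exists_homog`); hence `monomial (k * D) b * x l ^ e = x l ^ k * P x ∈ A`.
`int_Rh`: enough for `monomial k a` (sums), and for its `D`-th power `β = monomial (k * D) b`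
(`IsIntegral.of_pow`). Take `e` that works for all `l`. The `A`-submodule `M` of `K[X]` spanned by the
`monomial (E * D) (u ^ E * aeval t P)`, `P` a monomial of degree `E = (N + 1) * e`, is finitely generated,
nonzero, and contains all forms in `x` of degree at least `E`; each such monomial is divisible by some
`x l ^ e`, so `β * M ≤ M`; `isIntegral_of_smul_mem_submodule`. Alternatively use valuations:
`int_of_val` in the field `RatFunc K`. `Rk_zero`: take `coeff 0` (a ring map sending `A` into `ℂ`) of the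
equation of `C a`, so `a` is integral over the algebraically closed field `ℂ`
(`IsAlgClosed.algebraMap_bijective_of_isIntegral` or `minpoly` of degree one). Helper names start with `rin_`. -/

open Set Matrix MvPolynomial

noncomputable section

namespace Vale.Agent.P292

open Vale.Agent.P271 Vale.Agent.P276

variable {K : Type} [Field K] [Algebra ℂ K] {N n m d r D : ℕ} {t : Fin (N + 1) → K} {S : Cn K N}
  {θ : Derivation ℂ K K →ₗ[K] K} {v : Fin (N + 1) → ℂ} {g : (Fin (N + 1) → ℂ) → K} {g₀ : K}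
  {W : Type} [Field W] [Algebra ℂ W] {τ : Fin (d + 1) → Fin (N + 1)} {f : Fin (d + 1) → Vh K}
  {H : Fin S.M → Vh K}

theorem rin_chart {u : K} (h : Gd t D u g) {b : K} {k : ℕ} (hb : b ∈ Rk t g (k * D))
    (l : Fin (N + 1)) : ∃ (e : ℕ) (P : MP N), P.IsHomogeneous (k + e) ∧
      b * (u * t l) ^ e = u ^ (k + e) * aeval t P := by
  by_cases hl : t l = 0
  · exact ⟨1, 0, isHomogeneous_zero _ _ _, by simp [hl]⟩
  have hu := h.une
  have hm : b / (u * t l) ^ k ∈ chartRing t l := by
    refine reg_chart_one hl fun v hv hvl => ?_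
    obtain ⟨h1, -, h3⟩ := h.unit v hv l hvl
    have hg : g v ^ D ≠ 0 := right_ne_zero_of_mul h1
    have e1 : b / (u * t l) ^ k = b * g v ^ (k * D) * (u * t l * g v ^ D)⁻¹ ^ k := by
      rw [mul_comm k D, pow_mul, inv_pow, mul_pow (u * t l)]
      field_simp
    rw [e1]
    exact mul_mem (hb v hv) (pow_mem h3 k)
  obtain ⟨e, P, hP, eP⟩ := chart_exists hl ⟨_, hm⟩
  have e2 : b / (u * t l) ^ k * t l ^ e = aeval t P := by
    rw [← chart_aeval hl hP, eP]
  refine ⟨e, X l ^ k * P, (isHomogeneous_X_pow l k).mul hP, ?_⟩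
  rw [map_mul, map_pow, aeval_X, ← e2, mul_pow, mul_pow, pow_add u]
  field_simp

theorem rin_int {R : Type} [CommRing R] [IsDomain R] [Algebra ℂ R] {x : Fin (N + 1) → R}
    {l₀ : Fin (N + 1)} (h0 : x l₀ ≠ 0) {β : R} {k : ℕ}
    (h : ∀ l, ∃ (e : ℕ) (P : MP N), P.IsHomogeneous (k + e) ∧ β * x l ^ e = aeval x P) :
    IsIntegral (Algebra.adjoin ℂ (range x)) β := by
  let L := FractionRing R
  let ι : R →ₐ[ℂ] L := IsScalarTower.toAlgHom ℂ R L
  have hι : Function.Injective ι := IsFractionRing.injective R L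
  rw [← isIntegral_algebraMap_iff (IsFractionRing.injective R L)]
  refine int_of_val (algebraMap (Algebra.adjoin ℂ (range x)) L) fun O hO => ?_
  have hA : ∀ a ∈ Algebra.adjoin ℂ (range x), ι a ∈ O := fun a ha => hO ⟨a, ha⟩
  obtain ⟨l, hl⟩ := Finite.exists_max fun j => O.valuation (ι (x j))
  have hp : 0 < O.valuation (ι (x l)) :=
    lt_of_lt_of_le (zero_lt_iff.2 ((Valuation.ne_zero_iff _).2 ((map_ne_zero_iff _ hι).2 h0)))
      (hl l₀)
  have hl0 : ι (x l) ≠ 0 := (Valuation.ne_zero_iff _).1 hp.ne'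
  obtain ⟨e, P, hP, eP⟩ := h l
  have h1 : aeval (fun j => ι (x j) / ι (x l)) P ∈ O := by
    rw [aeval_def]
    refine eval₂_mem (fun i _ => ?_) fun j => ?_
    · rw [← ι.commutes]
      exact hA _ (algebraMap_mem _ _)
    · rw [← O.valuation_le_one_iff, map_div₀, div_le_one₀ hp]
      exact hl j
  have h2 : ι β = ι (x l) ^ k * aeval (fun j => ι (x j) / ι (x l)) P := by
    rw [aeval_div_homog hP, ← comp_aeval_apply x ι P, ← eP, map_mul, map_pow, pow_add,
      ← mul_div_assoc, eq_div_iff (mul_ne_zero (pow_ne_zero _ hl0) (pow_ne_zero _ hl0))]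
    ring
  change ι β ∈ O
  rw [h2]
  exact mul_mem (pow_mem (hA _ (Algebra.subset_adjoin ⟨l, rfl⟩)) k) h1

theorem rin_zh (u : K) {P : MP N} {e : ℕ} (hP : P.IsHomogeneous e) :
    aeval (zh (fun _ => D) fun j => u * t j) P =
      Polynomial.monomial (e * D) (u ^ e * aeval t P) := by
  have e1 : (zh (fun _ => D) fun j => u * t j) =
      fun j => Polynomial.C (t j) * Polynomial.monomial D u := by
    funext j
    rw [Polynomial.C_mul_monomial, mul_comm]
    rfl
  have e2 : aeval (fun j => Polynomial.C (t j)) P = Polynomial.C (aeval t P) :=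
    (comp_aeval_apply t (Polynomial.CAlgHom (R := ℂ) (A := K)) P).symm
  rw [e1, aeval_mul_homog hP, e2, Polynomial.monomial_pow, Polynomial.C_mul_monomial,
    mul_comm (u ^ e), mul_comm e D]

theorem rin_mono (ht : IsFunctionField t) {u : K} (h : Gd t D u g) {a : K} {k : ℕ}
    (ha : a ∈ Rk t g k) :
    IsIntegral (Algebra.adjoin ℂ (range (zh (fun _ => D) fun j => u * t j)))
      (Polynomial.monomial k a) := by
  refine IsIntegral.of_pow h.pos ?_
  obtain ⟨l₀, h0⟩ := Function.ne_iff.1 ht.1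
  have hb : a ^ D ∈ Rk t g (k * D) := fun v hv => by
    rw [pow_mul, ← mul_pow]
    exact pow_mem (ha v hv) D
  refine rin_int (l₀ := l₀) (k := k) ?_ fun l => ?_
  · exact fun e => mul_ne_zero h.une h0 (Polynomial.monomial_eq_zero_iff _ _ |>.1 e)
  · obtain ⟨e, P, hP, eP⟩ := rin_chart h hb l
    refine ⟨e, P, hP, ?_⟩
    rw [rin_zh u hP, ← eP, zh, Polynomial.monomial_pow, Polynomial.monomial_pow,
      Polynomial.monomial_mul_monomial, add_mul, mul_comm D e]

theorem int_Rh (ht : IsFunctionField t) {u : K} (h : Gd t D u g) {a : Polynomial K}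
    (ha : a ∈ Rh t g) :
    IsIntegral (Algebra.adjoin ℂ (range (zh (fun _ => D) fun j => u * t j))) a := by
  rw [a.as_sum_support]
  exact IsIntegral.sum _ fun k _ => rin_mono ht h (ha k)

theorem Rk_zero (ht : IsFunctionField t) {u : K} (h : Gd t D u g) {a : K} (ha : a ∈ Rk t g 0) :
    ∃ c : ℂ, algebraMap ℂ K c = a := by
  let φ : Polynomial K →ₐ[ℂ] K := (Polynomial.aeval (0 : K)).restrictScalars ℂ
  have h1 : (Algebra.adjoin ℂ (range (zh (fun _ => D) fun j => u * t j))).map φ ≤ ⊥ := by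
    rw [AlgHom.map_adjoin, Algebra.adjoin_le_iff]
    rintro _ ⟨_, ⟨j, rfl⟩, rfl⟩
    have : φ (zh (fun _ => D) (fun j => u * t j) j) = 0 := by
      simp [φ, zh, h.pos.ne']
    rw [this]
    exact zero_mem _
  obtain ⟨p, hp, e⟩ := rin_mono ht h ha
  let ψ : Algebra.adjoin ℂ (range (zh (fun _ => D) fun j => u * t j)) →+* (⊥ : Subalgebra ℂ K) :=
    ((φ : Polynomial K →+* K).comp (algebraMap _ _)).codRestrict (⊥ : Subalgebra ℂ K)
      fun x => h1 ⟨x, x.2, rfl⟩
  have h2 : IsIntegral (⊥ : Subalgebra ℂ K) a := by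
    refine ⟨p.map ψ, hp.map ψ, ?_⟩
    have e2 := congrArg (φ : Polynomial K →+* K) e
    rw [Polynomial.hom_eval₂, map_zero] at e2
    have e3 : (φ : Polynomial K →+* K) (Polynomial.monomial 0 a) = a := by simp [φ]
    rw [e3] at e2
    rw [Polynomial.eval₂_map]
    exact e2
  have h3 : Algebra.IsIntegral ℂ (⊥ : Subalgebra ℂ K) :=
    ⟨fun x => by
      obtain ⟨x, c, rfl⟩ := x
      exact isIntegral_algebraMap (x := c)⟩
  have h4 : IsIntegral ℂ a := isIntegral_trans a h2
  exact minpoly.mem_range_of_degree_eq_one ℂ a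
    (IsAlgClosed.degree_eq_one_of_irreducible ℂ (minpoly.irreducible h4))

end Vale.Agent.P292
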