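import Vale.Agent.P292.K.RInt

/-! P292 K/RLift (TASK). `rli_mon`: `int_Rh` for `zh w c i` (`mono_mem_Rh`), coefficients are values of
polynomials `q k` at `zh w c ∘ e0` (`zh_e0`); the relation `X i ^ n + ∑ rename e0 (q k) * X i ^ k` transfers
(`on_iff`). `int`: `z i` is integral over the valuation ring (`Ov.alg`). `ne`: if `z ∘ e0 = 0` then all
`ρ ^ w i * z i` (`sc ρ z` is on the cone: `aeval (sc ρ z) P = ρ ^ k * aeval z P`) are roots of one monic
polynomial over the infinite field `W`, so `z i = 0`. `lift`: `on0_tr` defines an algebra map `ψ` from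
`A = adjoin ℂ (range (zh (fun _ => D) _))` to `W` with `x` as values (`Ideal.Quotient.liftₐ` and
`quotientKerAlgEquivRange`, or `AlgHom.liftOfSurjective`); extend it to the integral extension `Rh`
(lying over `Ideal.exists_ideal_over_prime_of_isIntegral` and `IsAlgClosed.lift`; `rli_ext`).
Helper names start with `rli_`. -/

open Set Matrix MvPolynomial

noncomputable section

namespace Vale.Agent.P292

open Vale.Agent.P271 Vale.Agent.P276

variable {K : Type} [Field K] [Algebra ℂ K] {N n m d r D : ℕ} {t : Fin (N + 1) → K} {S : Cn K N}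
  {θ : Derivation ℂ K K →ₗ[K] K} {v : Fin (N + 1) → ℂ} {g : (Fin (N + 1) → ℂ) → K} {g₀ : K}
  {W : Type} [Field W] [Algebra ℂ W] {τ : Fin (d + 1) → Fin (N + 1)} {f : Fin (d + 1) → Vh K}
  {H : Fin S.M → Vh K}

theorem rli_dom {A B V : Type} [CommRing A] [CommRing B] [IsDomain A] [IsDomain B] [Algebra A B]
    [Algebra.IsIntegral A B] [Field V] [IsAlgClosed V] (h : Function.Injective (algebraMap A B))
    (φ : A →+* V) (hφ : Function.Injective φ) :
    ∃ χ : B →+* V, ∀ a, χ (algebraMap A B a) = φ a := by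
  let _ := φ.toAlgebra
  have : FaithfulSMul A V := (faithfulSMul_iff_algebraMap_injective _ _).2 hφ
  have : FaithfulSMul A B := (faithfulSMul_iff_algebraMap_injective _ _).2 h
  let ψ : B →ₐ[A] V := IsAlgClosed.lift
  exact ⟨ψ.toRingHom, ψ.commutes⟩

theorem rli_ext {A B : Type} [CommRing A] [CommRing B] [IsDomain B] [Algebra ℂ A] [Algebra ℂ B]
    [Algebra A B] [IsScalarTower ℂ A B] [FaithfulSMul A B] [Algebra.IsIntegral A B] [IsAlgClosed W]
    (ψ : A →ₐ[ℂ] W) : ∃ φ : B →ₐ[ℂ] W, ∀ a, φ (algebraMap A B a) = ψ a := by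
  have hp : (RingHom.ker (ψ : A →+* W)).IsPrime := RingHom.ker_isPrime _
  obtain ⟨q, -, hq, hc⟩ := Ideal.exists_ideal_over_prime_of_isIntegral (S := B)
    (RingHom.ker (ψ : A →+* W)) ⊥ (by
      rw [Ideal.comap_bot_of_injective _ (FaithfulSMul.algebraMap_injective A B)]
      exact bot_le)
  let φ : (A ⧸ q.comap (algebraMap A B)) →+* W :=
    Ideal.Quotient.lift _ (ψ : A →+* W) fun a ha => by rwa [hc] at ha
  have hφ : Function.Injective φ := RingHom.lift_injective_of_ker_le_ideal _ _ hc.ge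
  obtain ⟨χ, hχ⟩ := rli_dom (B := B ⧸ q) Ideal.algebraMap_quotient_injective φ hφ
  have key : ∀ a, χ.comp (Ideal.Quotient.mk q) (algebraMap A B a) = ψ a := fun a =>
    hχ (Ideal.Quotient.mk _ a)
  refine ⟨⟨χ.comp (Ideal.Quotient.mk q), fun c => ?_⟩, key⟩
  rw [IsScalarTower.algebraMap_apply ℂ A B]
  exact (key _).trans (ψ.commutes c)

theorem rli_mon (ht : IsFunctionField t) (hd : Gd t D S.u g) (h : Gens0 S t D g) (i : Fin S.M) :
    ∃ (k : ℕ) (q : ℕ → MP N), ∀ (R : Type) [CommRing R] [Algebra ℂ R] (z : Fin S.M → R), S.On z →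
      z i ^ k + ∑ j ∈ Finset.range k, aeval (z ∘ S.e0) (q j) * z i ^ j = 0 := by
  obtain ⟨p, hm, hp⟩ := int_Rh ht hd (mono_mem_Rh (h.mem i))
  have h1 : ∀ j, ∃ q : MP N, aeval (zh (fun _ => D) fun j => S.u * t j) q =
      (p.coeff j : Polynomial K) := fun j =>
    (Algebra.adjoin_range_eq_range_aeval ℂ _).le (p.coeff j).2
  choose q hq using h1
  refine ⟨p.natDegree, q, fun R _ _ z hz => ?_⟩
  have h2 := on_iff.1 hz (X i ^ p.natDegree +
    ∑ j ∈ Finset.range p.natDegree, rename S.e0 (q j) * X i ^ j) (by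
      rw [Polynomial.eval₂_eq_sum_range, Finset.sum_range_succ, hm.coeff_natDegree, map_one,
        one_mul, add_comm] at hp
      simp only [map_add, map_pow, map_sum, map_mul, aeval_X, aeval_rename, zh_e0 h, hq]
      exact hp)
  simpa only [map_add, map_pow, map_sum, map_mul, aeval_X, aeval_rename] using h2

theorem Gens0.int (ht : IsFunctionField t) (hd : Gd t D S.u g) (h : Gens0 S t D g) (W : Type)
    [Field W] [Algebra ℂ W] (O : ValuationSubring W) (hO : Ov ∅ O) (z : Fin S.M → W) (hz : S.On z)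
    (h0 : ∀ j, z (S.e0 j) ∈ O) (i : Fin S.M) : z i ∈ O := by
  obtain ⟨k, q, hq⟩ := rli_mon ht hd h i
  have h1 := hq W z hz
  have h2 : ∀ j, aeval (z ∘ S.e0) (q j) ∈ O := fun j =>
    eval₂_mem (fun _ _ => hO _ (algebraMap_mem _ _)) h0
  refine (O.mem_or_inv_mem (z i)).elim id fun hy => ?_
  by_cases hi : z i = 0
  · rw [hi]
    exact zero_mem _
  cases k with
  | zero => simp at h1
  | succ k =>
    have h3 : z i = -∑ j ∈ Finset.range (k + 1), aeval (z ∘ S.e0) (q j) * (z i)⁻¹ ^ (k - j) := by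
      have h4 : ∀ j ∈ Finset.range (k + 1), aeval (z ∘ S.e0) (q j) * (z i)⁻¹ ^ (k - j) =
          aeval (z ∘ S.e0) (q j) * z i ^ j * (z i)⁻¹ ^ k := fun j hj => by
        obtain ⟨e, rfl⟩ := Nat.exists_eq_add_of_le (Nat.lt_succ_iff.1 (Finset.mem_range.1 hj))
        rw [Nat.add_sub_cancel_left, pow_add, mul_assoc, ← mul_assoc (z i ^ j), ← mul_pow,
          mul_inv_cancel₀ hi, one_pow, one_mul]
      rw [Finset.sum_congr rfl h4, ← Finset.sum_mul, ← neg_mul, ← eq_neg_of_add_eq_zero_left h1,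
        pow_succ', mul_assoc, ← mul_pow, mul_inv_cancel₀ hi, one_pow, mul_one]
    rw [h3]
    exact neg_mem (sum_mem fun j _ => mul_mem (h2 j) (pow_mem hy _))

theorem Gens0.gens (ht : IsFunctionField t) (hd : Gd t D S.u g) (h : Gens0 S t D g) (d : ℕ) :
    Gens S t d D g := by
  refine ⟨h.wpos, h.we0, h.ce0, h.mem, h.gen, fun W _ _ z hz h0 he => h0 (funext fun i => ?_)⟩
  obtain ⟨k, q, hq⟩ := rli_mon ht hd h i
  have h1 := hq (Polynomial W) (zh S.w z) fun e P hP hc => by
    rw [zh_homog z hP, hz e P hP hc, map_zero]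
  have h2 : zh S.w z ∘ S.e0 = 0 := funext fun j => by
    have h3 : z (S.e0 j) = 0 := congrFun he j
    simp only [Function.comp_apply, zh, h3, map_zero, Pi.zero_apply]
  have h3 := congrArg (Polynomial.coeff · (S.w i * k)) h1
  simp only [h2, aeval_zero, zh, Polynomial.monomial_pow, Polynomial.coeff_add,
    Polynomial.finsetSum_coeff, Polynomial.algebraMap_apply, Polynomial.coeff_C_mul,
    Polynomial.coeff_monomial, if_true, Polynomial.coeff_zero] at h3
  rw [Finset.sum_eq_zero fun j hj => by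
    rw [if_neg (Nat.mul_lt_mul_of_pos_left (Finset.mem_range.1 hj) (h.wpos i)).ne, mul_zero],
    add_zero] at h3
  exact eq_zero_of_pow_eq_zero h3

theorem Gens0.lift (ht : IsFunctionField t) (hd : Gd t D S.u g) (h : Gens0 S t D g) (W : Type)
    [Field W] [Algebra ℂ W] [IsAlgClosed W] (x : Fin (N + 1) → W) (hx : On0 t x) :
    ∃ z : Fin S.M → W, S.On z ∧ z ∘ S.e0 = x := by
  have hm : ∀ i, zh S.w S.c i ∈ Rh t g := fun i => mono_mem_Rh (h.mem i)
  have hI := fun a (ha : a ∈ Rh t g) => int_Rh ht hd ha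
  have hx' := fun Q => on0_tr hx hd.une hd.pos (Q := Q)
  rw [← zh_e0 h] at hI hx'
  rw [Algebra.adjoin_range_eq_range_aeval] at hI
  have hAB : (aeval (R := ℂ) (zh S.w S.c ∘ S.e0)).range ≤ Rh t g := by
    rw [← Algebra.adjoin_range_eq_range_aeval]
    exact Algebra.adjoin_le (range_subset_iff.2 fun j => hm _)
  let _ : Algebra (aeval (R := ℂ) (zh S.w S.c ∘ S.e0)).range (Rh t g) :=
    (Subalgebra.inclusion hAB).toRingHom.toAlgebra
  have : IsScalarTower (aeval (R := ℂ) (zh S.w S.c ∘ S.e0)).range (Rh t g) (Polynomial K) :=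
    IsScalarTower.of_algebraMap_eq fun _ => rfl
  have : IsScalarTower ℂ (aeval (R := ℂ) (zh S.w S.c ∘ S.e0)).range (Rh t g) :=
    IsScalarTower.of_algebraMap_eq fun _ => rfl
  have : FaithfulSMul (aeval (R := ℂ) (zh S.w S.c ∘ S.e0)).range (Rh t g) :=
    (faithfulSMul_iff_algebraMap_injective _ _).2 (Subalgebra.inclusion_injective hAB)
  have : Algebra.IsIntegral (aeval (R := ℂ) (zh S.w S.c ∘ S.e0)).range (Rh t g) :=
    ⟨fun b => (isIntegral_algebraMap_iff (B := Polynomial K) Subtype.val_injective).1 (hI b b.2)⟩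
  obtain ⟨φ, hφ⟩ := rli_ext (B := Rh t g) (AlgHom.liftOfSurjective _
    (aeval (R := ℂ) (zh S.w S.c ∘ S.e0)).rangeRestrict_surjective (aeval x)
    fun Q hQ => hx' Q (congrArg Subtype.val hQ))
  refine ⟨fun i => φ ⟨_, hm i⟩, on_iff.2 fun Q hQ => ?_, funext fun j => ?_⟩
  · have h1 : aeval (fun i => (⟨_, hm i⟩ : Rh t g)) Q = 0 :=
      Subtype.ext ((comp_aeval_apply _ (Rh t g).val Q).trans hQ)
    rw [← comp_aeval_apply, h1, map_zero]
  · have h1 := (hφ ((aeval (R := ℂ) (zh S.w S.c ∘ S.e0)).rangeRestrict (X j))).trans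
      ((AlgHom.liftOfSurjective_apply _ _ _ _ _).trans (aeval_X x j))
    exact (congrArg φ (Subtype.ext (aeval_X (R := ℂ) (zh S.w S.c ∘ S.e0) j).symm)).trans h1

end Vale.Agent.P292
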