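import Vale.Agent.P292.K.RTr
import Vale.Agent.P292.K.U
import Vale.Agent.P276.E.GenA

/-! P292 K/RNrm (TASK). `Rh_closed`: `y` is integral over `K[X]`, which is integrally closed, so `y` is a
polynomial `p`, integral over `Rh`. At `v` apply the algebra map `aeval (C (g v) * X)` (coefficients
`p.coeff k * g v ^ k`, `comp_C_mul_X_coeff`); it sends `Rh` into the image of `(locRing t v)[X]`, so
`Polynomial.isIntegral_iff_isIntegral_coeff` and `normal` finish. `gen_inj`: `inj_of_indep` in the field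
`RatFunc K` (`on_iff`, `indep_iff_rk`); `¬ Indep (d + 2)`: the values lie in `cl (insert X (image of K))`,
use a transcendence basis of `K` (`hs.1`) and `rk` lemmas, or `trdeg_add_eq`. `nrm`: `y = P z / Q z`
(`IntermediateField.mem_adjoin_iff_div`); clear denominators in the monic equation, transfer it to
`zh` (`gen_inj`), so `P zh / Q zh` is integral over `Rh = adjoin (range zh)` (`adjoin_zh`), equal to
`T zh`; transfer `P - T * Q` back (`on_iff`). Helper names start with `rnr_`. -/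

open Set Matrix MvPolynomial

noncomputable section

namespace Vale.Agent.P292

open Vale.Agent.P271 Vale.Agent.P276

variable {K : Type} [Field K] [Algebra ℂ K] {N n m d r D : ℕ} {t : Fin (N + 1) → K} {S : Cn K N}
  {θ : Derivation ℂ K K →ₗ[K] K} {v : Fin (N + 1) → ℂ} {g : (Fin (N + 1) → ℂ) → K} {g₀ : K}
  {W : Type} [Field W] [Algebra ℂ W] {τ : Fin (d + 1) → Fin (N + 1)} {f : Fin (d + 1) → Vh K}
  {H : Fin S.M → Vh K}

theorem rnr_coeff {O : Subalgebra ℂ K} {R : Subalgebra ℂ (Polynomial K)} {c : K}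
    (hR : ∀ q ∈ R, ∀ k, q.coeff k * c ^ k ∈ O) {p : Polynomial K} (hp : IsIntegral R p) (k : ℕ) :
    IsIntegral O (p.coeff k * c ^ k) := by
  let _ : Algebra (Polynomial O) (Polynomial K) := Polynomial.algebra O K
  obtain ⟨P, hm, h0⟩ := hp
  let ψ : Polynomial K →+* Polynomial K := Polynomial.compRingHom (Polynomial.C c * Polynomial.X)
  have hψ : ∀ q j, (ψ q).coeff j = q.coeff j * c ^ j := fun q j =>
    Polynomial.comp_C_mul_X_coeff
  have h1 : P.map (ψ.comp (algebraMap R (Polynomial K))) ∈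
      Polynomial.lifts (Polynomial.mapRingHom (algebraMap O K)) := by
    rw [Polynomial.lifts_iff_coeff_lifts]
    intro j
    rw [Polynomial.coeff_map]
    refine (Polynomial.mem_lifts _).1 ((Polynomial.lifts_iff_coeff_lifts _).2 fun i => ?_)
    exact ⟨⟨_, hR _ (P.coeff j).2 i⟩, (hψ _ i).symm⟩
  obtain ⟨Q, hQ, -, hQm⟩ := Polynomial.lifts_and_degree_eq_and_monic h1 (hm.map _)
  have h2 : IsIntegral (Polynomial O) (ψ p) := by
    refine ⟨Q, hQm, ?_⟩
    show Polynomial.eval₂ (Polynomial.mapRingHom (algebraMap O K)) (ψ p) Q = 0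
    rw [← Polynomial.eval_map, hQ, Polynomial.eval_map, ← Polynomial.hom_eval₂, h0, map_zero]
  rw [← hψ]
  exact Polynomial.isIntegral_iff_isIntegral_coeff.1 h2 k

theorem Rh_closed (ht : IsFunctionField t) (hs : IsSmoothOfDim t d) {y : RatFunc K}
    (hy : IsIntegral (Rh t g) y) : ∃ p ∈ Rh t g, algebraMap (Polynomial K) (RatFunc K) p = y := by
  obtain ⟨p, rfl⟩ := (IsIntegrallyClosed.isIntegral_iff (R := Polynomial K)).1 hy.tower_top
  have hp : IsIntegral (Rh t g) p :=
    (isIntegral_algebraMap_iff (IsFractionRing.injective (Polynomial K) (RatFunc K))).1 hy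
  exact ⟨p, fun k v hv =>
    normal ht hs hv (rnr_coeff (R := Rh t g) (fun q hq j => hq j v hv) hp k), rfl⟩

theorem gen_inj (hs : IsSmoothOfDim t d) {z : Fin S.M → W} (hz : S.On z)
    (hr : rk (range z) = d + 1) {Q : MvPolynomial (Fin S.M) ℂ} (hQ : aeval z Q = 0) :
    aeval (zh S.w S.c) Q = 0 := by
  let φ : Polynomial K →ₐ[ℂ] RatFunc K := IsScalarTower.toAlgHom ℂ (Polynomial K) (RatFunc K)
  have hφ : Function.Injective φ := IsFractionRing.injective (Polynomial K) (RatFunc K)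
  let f : K →ₐ[ℂ] RatFunc K := φ.comp (IsScalarTower.toAlgHom ℂ K (Polynomial K))
  have e : ∀ P : MvPolynomial (Fin S.M) ℂ,
      aeval (fun i => φ (zh S.w S.c i)) P = φ (aeval (zh S.w S.c) P) :=
    fun P => (comp_aeval_apply _ φ P).symm
  have h1 : rk (range S.c) ≤ d := by
    by_contra h
    obtain ⟨y, -, hy⟩ := (indep_iff_rk (k := d + 1) (finite_range _)).2 (not_le.1 h)
    have h2 := hy.cardinalMk_le_trdeg
    rw [hs.1, Cardinal.mk_fin, Nat.cast_le] at h2
    omega
  have h2 : range (fun i => φ (zh S.w S.c i)) ⊆ cl (insert (φ Polynomial.X) (f '' range S.c)) := by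
    rintro _ ⟨i, rfl⟩
    have a1 : φ Polynomial.X ∈ cl (insert (φ Polynomial.X) (f '' range S.c)) :=
      subset_cl _ (mem_insert _ _)
    have a2 : f (S.c i) ∈ cl (insert (φ Polynomial.X) (f '' range S.c)) :=
      subset_cl _ (Or.inr ⟨_, ⟨i, rfl⟩, rfl⟩)
    show φ (Polynomial.monomial (S.w i) (S.c i)) ∈ _
    rw [← Polynomial.C_mul_X_pow_eq_monomial, map_mul, map_pow]
    exact mul_mem a2 (pow_mem a1 _)
  have h3 := rk_mono (((finite_range S.c).image f).insert _) h2
  have h4 := rk_insert_le ((finite_range S.c).image f) (φ Polynomial.X)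
  rw [rk_image] at h4
  apply hφ
  rw [← e, map_zero]
  refine inj_of_indep (k := d + 1) (fun P hP => on_iff.1 hz P (hφ ?_)) ?_ ?_ Q hQ
  · rw [← e, hP, map_zero]
  · rw [indep_iff_rk (finite_range _)]
    omega
  · rw [indep_iff_rk (finite_range _), hr]

theorem rnr_tr {B V V' : Type} [CommRing B] [Field V] [Field V'] {φ : B →+* V} {ψ : B →+* V'}
    (h : ∀ b, φ b = 0 → ψ b = 0) {P Q : B} (h1 : φ Q ≠ 0) (h2 : ψ Q ≠ 0) {p : Polynomial B}
    (hp : p.eval₂ φ (φ P / φ Q) = 0) : p.eval₂ ψ (ψ P / ψ Q) = 0 := by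
  have a1 := Polynomial.scaleRoots_eval₂_mul (p := p) φ (φ P / φ Q) Q
  have a2 := Polynomial.scaleRoots_eval₂_mul (p := p) ψ (ψ P / ψ Q) Q
  rw [mul_div_cancel₀ _ h1, hp, mul_zero, Polynomial.eval₂_hom] at a1
  rw [mul_div_cancel₀ _ h2, Polynomial.eval₂_hom, h _ a1] at a2
  exact (mul_eq_zero.1 a2.symm).resolve_left (pow_ne_zero _ h2)

theorem Gens0.nrm (ht : IsFunctionField t) (hs : IsSmoothOfDim t d) (h : Gens0 S t D g) (W : Type)
    [Field W] [Algebra ℂ W] (z : Fin S.M → W) (hz : S.On z) (hr : rk (range z) = d + 1) (y : W)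
    (hy : y ∈ IntermediateField.adjoin ℂ (range z))
    (hi : IsIntegral (Algebra.adjoin ℂ (range z)) y) : y ∈ Algebra.adjoin ℂ (range z) := by
  obtain ⟨P, Q, rfl⟩ := (IntermediateField.mem_adjoin_range_iff ℂ z y).1 hy
  by_cases hQ : aeval z Q = 0
  · rw [hQ, div_zero]
    exact zero_mem _
  have hm : ∀ T : MvPolynomial (Fin S.M) ℂ, aeval z T ∈ Algebra.adjoin ℂ (range z) := fun T => by
    rw [Algebra.adjoin_range_eq_range_aeval]
    exact ⟨T, rfl⟩
  have hm' : ∀ T : MvPolynomial (Fin S.M) ℂ, aeval (zh S.w S.c) T ∈ Rh t g := fun T => by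
    rw [← adjoin_zh h, Algebra.adjoin_range_eq_range_aeval]
    exact ⟨T, rfl⟩
  let φ : MvPolynomial (Fin S.M) ℂ →+* Algebra.adjoin ℂ (range z) :=
    (aeval z : MvPolynomial (Fin S.M) ℂ →ₐ[ℂ] W).toRingHom.codRestrict _ hm
  let ρ : MvPolynomial (Fin S.M) ℂ →+* Rh t g :=
    (aeval (zh S.w S.c) : MvPolynomial (Fin S.M) ℂ →ₐ[ℂ] Polynomial K).toRingHom.codRestrict _ hm'
  have hj := IsFractionRing.injective (Polynomial K) (RatFunc K)
  obtain ⟨p, pm, p0⟩ := hi
  have h1 : p ∈ Polynomial.lifts φ := by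
    rw [Polynomial.lifts_iff_coeff_lifts]
    intro j
    obtain ⟨a, ha⟩ := p.coeff j
    have ha' := ha
    rw [Algebra.adjoin_range_eq_range_aeval] at ha'
    obtain ⟨T, rfl⟩ := ha'
    exact ⟨T, rfl⟩
  obtain ⟨q, rfl, -, qm⟩ := Polynomial.lifts_and_degree_eq_and_monic h1 pm
  rw [Polynomial.eval₂_map] at p0
  have hQ' : algebraMap (Polynomial K) (RatFunc K) (aeval (zh S.w S.c) Q) ≠ 0 := fun e =>
    hQ (on_iff.1 hz Q (hj (e.trans (map_zero _).symm)))
  have h2 := rnr_tr (φ := (algebraMap (Algebra.adjoin ℂ (range z)) W).comp φ)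
    (ψ := (algebraMap (Rh t g) (RatFunc K)).comp ρ) (fun b hb => by
      show algebraMap (Polynomial K) (RatFunc K) (aeval (zh S.w S.c) b) = 0
      rw [gen_inj hs hz hr hb, map_zero]) (P := P) (Q := Q) hQ hQ' p0
  obtain ⟨a, ha, e⟩ := Rh_closed (g := g) ht hs ⟨q.map ρ, qm.map _, by
    rw [Polynomial.eval₂_map]
    exact h2⟩
  rw [← adjoin_zh h, Algebra.adjoin_range_eq_range_aeval] at ha
  obtain ⟨T, rfl⟩ := ha
  have h3 : aeval (zh S.w S.c) (P - T * Q) = 0 := by
    apply hj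
    have e' : algebraMap (Polynomial K) (RatFunc K) (aeval (zh S.w S.c) T) =
        algebraMap (Polynomial K) (RatFunc K) (aeval (zh S.w S.c) P) /
          algebraMap (Polynomial K) (RatFunc K) (aeval (zh S.w S.c) Q) := e
    rw [map_sub, map_mul, map_sub, map_mul, e', div_mul_cancel₀ _ hQ', sub_self, map_zero]
  have h4 := on_iff.1 hz _ h3
  rw [map_sub, map_mul, sub_eq_zero] at h4
  rw [h4, mul_div_cancel_right₀ _ hQ]
  exact hm T

end Vale.Agent.P292
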