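import Vale.Agent.P292.K.Defs

/-! P292 K/RTr (TASK). The generic point `zh w c` of the cone in `K[X]`. `coeff_zh`: linear in `Q`; for a
monomial `aeval (zh w c) (monomial s a) = Polynomial.monomial (weight w s) (aeval c (monomial s a))`
(`weightedHomogeneousComponent_of_mem` or `coeff_weightedHomogeneousComponent`; induction by
`MvPolynomial.induction_on'`). `zh_homog` follows. `zh_tr`: `Q` is the sum of its components
(`sum_weightedHomogeneousComponent`, or finite support and `finsum`). `on0_tr`: the same with constant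
weights `D`; or use ordinary components: `aeval (zh ..) Q = ∑ e, monomial (e * D) (u ^ e * aeval t (Q e))`
(`sum_homogeneousComponent`, `aeval_mul_homog`). `adjoin_zh`: a polynomial is the sum of its monomials
(`Polynomial.as_sum_support`), `gen`, `zh_homog`. Helper names start with `rtr_`. -/

open Set Matrix MvPolynomial

noncomputable section

namespace Vale.Agent.P292

open Vale.Agent.P271 Vale.Agent.P276

variable {K : Type} [Field K] [Algebra ℂ K] {N n m d r D : ℕ} {t : Fin (N + 1) → K} {S : Cn K N}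
  {θ : Derivation ℂ K K →ₗ[K] K} {v : Fin (N + 1) → ℂ} {g : (Fin (N + 1) → ℂ) → K} {g₀ : K}
  {W : Type} [Field W] [Algebra ℂ W] {τ : Fin (d + 1) → Fin (N + 1)} {f : Fin (d + 1) → Vh K}
  {H : Fin S.M → Vh K}

theorem rtr_mono {ι : Type} (w : ι → ℕ) (c : ι → K) (s : ι →₀ ℕ) (a : ℂ) :
    aeval (zh w c) (monomial s a) =
      Polynomial.monomial (Finsupp.weight w s) (aeval c (monomial s a)) := by
  rw [aeval_monomial, aeval_monomial, ← Polynomial.C_mul_X_pow_eq_monomial, map_mul,
    Finsupp.weight_apply, Finsupp.sum, ← Finset.prod_pow_eq_pow_sum, Finsupp.prod, Finsupp.prod,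
    map_prod, mul_assoc, ← Finset.prod_mul_distrib, Polynomial.algebraMap_apply]
  refine congrArg _ (Finset.prod_congr rfl fun i _ => ?_)
  rw [zh, ← Polynomial.C_mul_X_pow_eq_monomial, mul_pow, ← pow_mul, map_pow, smul_eq_mul,
    mul_comm (s i)]

theorem rtr_sum {ι R : Type} [CommRing R] [Algebra ℂ R] (w : ι → ℕ) (z : ι → R)
    {Q : MvPolynomial ι ℂ} (h : ∀ k, aeval z (weightedHomogeneousComponent w k Q) = 0) :
    aeval z Q = 0 := by
  rw [← sum_weightedHomogeneousComponent w Q,
    finsum_eq_sum _ (weightedHomogeneousComponent_finsupp Q), map_sum]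
  exact Finset.sum_eq_zero fun k _ => h k

theorem coeff_zh {ι : Type} (w : ι → ℕ) (c : ι → K) (Q : MvPolynomial ι ℂ) (k : ℕ) :
    (aeval (zh w c) Q).coeff k = aeval c (weightedHomogeneousComponent w k Q) := by
  induction Q using MvPolynomial.induction_on' with
  | monomial s a =>
    rw [rtr_mono, Polynomial.coeff_monomial,
      weightedHomogeneousComponent_of_mem (isWeightedHomogeneous_monomial w s a rfl)]
    by_cases e : k = Finsupp.weight w s
    · rw [if_pos e, if_pos e.symm]
    · rw [if_neg e, if_neg (Ne.symm e), map_zero]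
  | add p q hp hq => rw [map_add, Polynomial.coeff_add, hp, hq, map_add, map_add]

theorem zh_homog {ι : Type} {w : ι → ℕ} (c : ι → K) {Q : MvPolynomial ι ℂ} {k : ℕ}
    (hQ : Q.IsWeightedHomogeneous w k) : aeval (zh w c) Q = Polynomial.monomial k (aeval c Q) := by
  ext j
  rw [coeff_zh, Polynomial.coeff_monomial, weightedHomogeneousComponent_of_mem hQ]
  by_cases e : j = k
  · rw [if_pos e, if_pos e.symm]
  · rw [if_neg e, if_neg (Ne.symm e), map_zero]

theorem mono_mem_Rh {a : K} {k : ℕ} (h : a ∈ Rk t g k) : Polynomial.monomial k a ∈ Rh t g := by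
  intro j v hv
  rw [Polynomial.coeff_monomial]
  split_ifs with e
  · rw [← e]
    exact h v hv
  · rw [zero_mul]
    exact zero_mem _

theorem on_iff {R : Type} [CommRing R] [Algebra ℂ R] {z : Fin S.M → R} :
    S.On z ↔ ∀ Q : MvPolynomial (Fin S.M) ℂ, aeval (zh S.w S.c) Q = 0 → aeval z Q = 0 := by
  refine ⟨fun hz Q hQ => rtr_sum S.w z fun k => hz k _
    (weightedHomogeneousComponent_isWeightedHomogeneous k Q) ?_, fun h k P hP h0 => h P ?_⟩
  · rw [← coeff_zh, hQ, Polynomial.coeff_zero]
  · rw [zh_homog _ hP, h0, map_zero]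

theorem on0_tr {R : Type} [CommRing R] [Algebra ℂ R] {x : Fin (N + 1) → R} (hx : On0 t x) {u : K}
    (hu : u ≠ 0) (hD : 0 < D) {Q : MP N} (hQ : aeval (zh (fun _ => D) fun j => u * t j) Q = 0) :
    aeval x Q = 0 := by
  have e : (zh (fun _ => D) fun j => u * t j) = fun j =>
      ((Polynomial.expand K D).restrictScalars ℂ) (zh 1 (fun j => t j * u) j) := by
    funext j
    rw [AlgHom.restrictScalars_apply, zh, zh, Polynomial.expand_monomial, Pi.one_apply, one_mul,
      mul_comm u]
  rw [e, ← comp_aeval_apply, AlgHom.restrictScalars_apply] at hQ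
  have h1 : aeval (zh 1 fun j => t j * u) Q = 0 :=
    Polynomial.expand_injective hD (hQ.trans (map_zero _).symm)
  refine rtr_sum 1 x fun k => ?_
  have h2 : (weightedHomogeneousComponent 1 k Q).IsHomogeneous k :=
    weightedHomogeneousComponent_isWeightedHomogeneous k Q
  have h3 := coeff_zh 1 (fun j => t j * u) Q k
  rw [h1, Polynomial.coeff_zero, aeval_mul_homog h2] at h3
  exact hx k _ h2 ((mul_eq_zero.1 h3.symm).resolve_right (pow_ne_zero _ hu))

theorem zh_e0 (h : Gens0 S t D g) :
    zh S.w S.c ∘ S.e0 = zh (fun _ => D) fun j => S.u * t j := by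
  funext j
  rw [Function.comp_apply, zh, zh, h.we0, h.ce0]

theorem adjoin_zh (h : Gens0 S t D g) : Algebra.adjoin ℂ (range (zh S.w S.c)) = Rh t g := by
  refine le_antisymm (Algebra.adjoin_le ?_) fun f hf => ?_
  · rintro _ ⟨i, rfl⟩
    exact mono_mem_Rh (h.mem i)
  · rw [f.as_sum_support]
    refine sum_mem fun k _ => ?_
    obtain ⟨P, hP, e⟩ := h.gen k _ (hf k)
    rw [← e, ← zh_homog _ hP, Algebra.adjoin_range_eq_range_aeval]
    exact ⟨P, rfl⟩

end Vale.Agent.P292
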