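import Vale.Agent.P292.K.Rel

/-! P292 K/RUniq (TASK). `kne`, `kon0`, `exists_spec` give `v` with `Spec v (z ∘ e0)`; pick `l` with `v l ≠ 0`.
`uniq`: by `rel`, `z i * B i x = A i x * P₀ z ^ w i` at `z` and `z'` (same `x`); `ζ = P₀ z' / P₀ z`; for
`i = e0 l` cancel `A i x`. `free`: `ζ ^ D = 1` from `z (e0 l) ≠ 0`; `sig`, `gen` give `P₀` of weight
`e * D + 1` with `aeval c P₀ * g v ^ (e * D + 1) = (u * t l * g v ^ D) ^ e * (Q₀ t / t l ^ e)`, a unit
(both `Q₀ t / t l ^ e` and its inverse are generators of `locRing`; `Q₀ t ≠ 0` by `OnX`), so `P₀ z ≠ 0`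
(`nv`) and `P₀ (sc ζ z) = ζ ^ (e * D + 1) * P₀ z`. Helper names start with `run_`. -/

open Set Matrix MvPolynomial

noncomputable section

namespace Vale.Agent.P292

open Vale.Agent.P271 Vale.Agent.P276

variable {K : Type} [Field K] [Algebra ℂ K] {N n m d r D : ℕ} {t : Fin (N + 1) → K} {S : Cn K N}
  {θ : Derivation ℂ K K →ₗ[K] K} {v : Fin (N + 1) → ℂ} {g : (Fin (N + 1) → ℂ) → K} {g₀ : K}
  {W : Type} [Field W] [Algebra ℂ W] {τ : Fin (d + 1) → Fin (N + 1)} {f : Fin (d + 1) → Vh K}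
  {H : Fin S.M → Vh K}

theorem run_sc {P : MvPolynomial (Fin S.M) ℂ} {k : ℕ} (hP : P.IsWeightedHomogeneous S.w k) (ρ : W)
    (z : Fin S.M → W) : aeval (S.sc ρ z) P = ρ ^ k * aeval z P := by
  rw [aeval_def, aeval_def, eval₂_eq, eval₂_eq, Finset.mul_sum]
  refine Finset.sum_congr rfl fun e he => ?_
  have h := hP (mem_support_iff.1 he)
  rw [Finsupp.weight_apply, Finsupp.sum] at h
  rw [← h, ← Finset.prod_pow_eq_pow_sum, mul_left_comm, ← Finset.prod_mul_distrib]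
  refine congrArg _ (Finset.prod_congr rfl fun i _ => ?_)
  rw [Cn.sc, mul_pow, ← pow_mul, smul_eq_mul, mul_comm (S.w i)]

theorem run_ne {z : Fin S.M → W} (hsp : Spec v (z ∘ S.e0)) {l : Fin (N + 1)} (hl : v l ≠ 0) :
    z (S.e0 l) ≠ 0 := by
  have h3 := hsp 1 (X l) (isHomogeneous_X _ _) (by rwa [eval_X])
  rwa [aeval_X] at h3

theorem Gens.uniq (ht : IsFunctionField t) (hs : IsSmoothOfDim t d) (hd : Gd t D S.u g)
    (h : Gens S t d D g) (W : Type) [Field W] [Algebra ℂ W] (z z' : Fin S.M → W) (hz : S.On z)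
    (hz' : S.On z') (h0 : z ≠ 0) (he : z ∘ S.e0 = z' ∘ S.e0) :
    ∃ ζ : W, ζ ^ D = 1 ∧ z' = S.sc ζ z := by
  obtain ⟨v, hv, hsp⟩ := exists_spec (kon0 h hz) (h.ne W z hz h0)
  obtain ⟨l, hl⟩ := Function.ne_iff.1 hv.1
  have hl : v l ≠ 0 := hl
  obtain ⟨P₀, A, B, h1, h2⟩ := rel ht hs hd h hv hl
  obtain ⟨p0, -, b0⟩ := h2 W z hz hsp
  have key : ∀ y : Fin S.M → W, S.On y → ∀ i, y i * aeval (y ∘ S.e0) (B i) =
      aeval (y ∘ S.e0) (A i) * aeval y P₀ ^ S.w i := fun y hy i => by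
    obtain ⟨k, hk, e⟩ := h1 i
    have e2 := hy k _ hk e
    rwa [map_sub, map_mul, map_mul, map_pow, aeval_X, aeval_rename, aeval_rename,
      sub_eq_zero] at e2
  have k2 : ∀ i, z' i = (aeval z' P₀ / aeval z P₀) ^ S.w i * z i := fun i => by
    have e1 := key z hz i
    have e2 := key z' hz' i
    rw [← he] at e2
    apply mul_right_cancel₀ (b0 i)
    rw [e2, mul_assoc, e1, div_pow, mul_left_comm, div_mul_cancel₀ _ (pow_ne_zero _ p0)]
  refine ⟨aeval z' P₀ / aeval z P₀, ?_, funext k2⟩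
  have e3 := k2 (S.e0 l)
  have e4 : z' (S.e0 l) = z (S.e0 l) := (congrFun he l).symm
  rw [e4, h.we0] at e3
  exact mul_right_cancel₀ (run_ne hsp hl) (e3.symm.trans (one_mul _).symm)

theorem Gens.free (ht : IsFunctionField t) (hs : IsSmoothOfDim t d) (hd : Gd t D S.u g)
    (h : Gens S t d D g) (W : Type) [Field W] [Algebra ℂ W] (z : Fin S.M → W) (ζ : W) (hz : S.On z)
    (h0 : z ≠ 0) (he : S.sc ζ z = z) : ζ = 1 := by
  obtain ⟨v, hv, hsp⟩ := exists_spec (kon0 h hz) (h.ne W z hz h0)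
  obtain ⟨l, hl⟩ := Function.ne_iff.1 hv.1
  have hl : v l ≠ 0 := hl
  have e1 : ζ ^ D = 1 := by
    have e : ζ ^ S.w (S.e0 l) * z (S.e0 l) = z (S.e0 l) := congrFun he (S.e0 l)
    rw [h.we0] at e
    exact mul_right_cancel₀ (run_ne hsp hl) (e.trans (one_mul _).symm)
  obtain ⟨e, Q₀, hQ, hQ0, hR⟩ := sig ht hs hd hv
  obtain ⟨P₀, hP, eP⟩ := h.gen _ _ hR
  have hu := hd.unit v hv l hl
  have g0 : g v ≠ 0 := fun h0 => hu.1 (by rw [h0, zero_pow hd.pos.ne', mul_zero])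
  have t0 := hv.ne hl
  have q0 : aeval t Q₀ ≠ 0 := fun h0 => hQ0 (hv.2 e Q₀ hQ h0)
  have hX : ((X l : MP N) ^ e).IsHomogeneous e := by
    have h5 := (isHomogeneous_X ℂ l).pow e
    rwa [one_mul] at h5
  have hq : Un (locRing t v) (aeval t Q₀ / t l ^ e) := by
    refine ⟨div_ne_zero q0 (pow_ne_zero _ t0),
      Algebra.subset_adjoin ⟨e, Q₀, X l ^ e, hQ, hX, ?_, ?_⟩,
      Algebra.subset_adjoin ⟨e, X l ^ e, Q₀, hX, hQ, hQ0, ?_⟩⟩
    · rw [map_pow, eval_X]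
      exact pow_ne_zero _ hl
    · rw [map_pow, aeval_X, div_mul_cancel₀ _ (pow_ne_zero _ t0)]
    · rw [map_pow, aeval_X, inv_div, div_mul_cancel₀ _ q0]
  have e6 : (S.u * t l * g v ^ D) ^ e * (aeval t Q₀ / t l ^ e) =
      aeval S.c P₀ * g v ^ (e * D + 1) := by
    rw [eP, mul_pow, mul_pow, ← pow_mul, mul_comm D e, pow_succ]
    field_simp
  have hU := (hu.pow e).mul hq
  rw [e6] at hU
  have p0 := nv hd h hv hP hU hz hsp
  have e2 := run_sc hP ζ z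
  rw [he, pow_succ, mul_comm e D, pow_mul, e1, one_pow, one_mul] at e2
  exact mul_right_cancel₀ p0 (e2.symm.trans (one_mul _).symm)

end Vale.Agent.P292
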