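import Vale.Agent.P292.K.Nv

/-! P292 K/Rel (TASK). Tangent vectors are determined by the coordinates `e0 (τ a)`. `rel`: `sig` and
`gen` give `P₀` with `aeval c P₀ * g v = u ^ e * Q₀ t`; `loc_quot` for `c i * g v ^ w i` (`mem`), and
`can_unit` for `i = e0 l` (`Gd.unit`, `ce0`, `we0`); `B i = rename e0 (B' i * Q₀ ^ w i)`,
`A i = rename e0 (A' i)`; `nv` for `P₀` (`u ^ e Q₀ t g ^ (e D)` is a unit: it is
`(u t l g ^ D) ^ e * (Q₀ t / t l ^ e)`). `loc_zero`: `δ₁ = jd e x G τ • δ` with `x = z' ∘ e0` has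
`δ₁ ∘ e0 = 0` (`kinK`, `jm_mulVec`, `adjugate_mul`); apply `kdd z' δ₁` to the relations (`dd_mul`,
`dd_pow`, `dd_e0`): `B i * δ₁ i = A i * w i * P₀ ^ (w i - 1) * ρ`, `ρ = kdd z' δ₁ P₀`; for `i = e0 (τ 0)`
the left side is zero and `D` is invertible. So
`q = rename e0 (jd e X G τ) * A (e0 (τ 0)) * P₀ ^ (D - 1) * ∏ i, B i` (`jd_aeval`, `Good.jd_ne`).
Prefix helper names by `kre_`. -/

open Set Matrix MvPolynomial

noncomputable section

namespace Vale.Agent.P292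

open Vale.Agent.P271 Vale.Agent.P276

variable {K : Type} [Field K] [Algebra ℂ K] {N n m d r D : ℕ} {t : Fin (N + 1) → K} {S : Cn K N}
  {θ : Derivation ℂ K K →ₗ[K] K} {v : Fin (N + 1) → ℂ} {g : (Fin (N + 1) → ℂ) → K} {g₀ : K}
  {W : Type} [Field W] [Algebra ℂ W] {τ : Fin (d + 1) → Fin (N + 1)} {f : Fin (d + 1) → Vh K}
  {H : Fin S.M → Vh K}

theorem rel (ht : IsFunctionField t) (hs : IsSmoothOfDim t d) (hd : Gd t D S.u g)
    (h : Gens S t d D g) (hv : OnX t v) {l : Fin (N + 1)} (hl : v l ≠ 0) :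
    ∃ (P₀ : MvPolynomial (Fin S.M) ℂ) (A B : Fin S.M → MP N),
      (∀ i, ∃ k, (X i * rename S.e0 (B i) - rename S.e0 (A i) * P₀ ^ S.w i).IsWeightedHomogeneous
        S.w k ∧ aeval S.c (X i * rename S.e0 (B i) - rename S.e0 (A i) * P₀ ^ S.w i) = 0) ∧
      ∀ (W : Type) [Field W] [Algebra ℂ W] (z : Fin S.M → W), S.On z → Spec v (z ∘ S.e0) →
        aeval z P₀ ≠ 0 ∧ aeval (z ∘ S.e0) (A (S.e0 l)) ≠ 0 ∧ ∀ i, aeval (z ∘ S.e0) (B i) ≠ 0 := by
  obtain ⟨e, Q₀, hQ, hQv, hmem⟩ := sig ht hs hd hv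
  obtain ⟨P₀, hP, hPc⟩ := h.gen _ _ hmem
  have hU := hd.unit v hv l hl
  have hg : g v ≠ 0 := ne_zero_pow hd.pos.ne' (right_ne_zero_of_mul hU.1)
  have htl : t l ≠ 0 := hv.ne hl
  have hq : ∀ i, ∃ (f : ℕ) (A B : MP N), A.IsHomogeneous f ∧ B.IsHomogeneous f ∧ eval v B ≠ 0 ∧
      S.c i * g v ^ S.w i * aeval t B = aeval t A ∧ (i = S.e0 l → eval v A ≠ 0) := by
    intro i
    by_cases hi : i = S.e0 l
    · obtain ⟨f, A, B, a1, a2, a3, a4, a5⟩ := can_unit hv hU.1 hU.2.1 hU.2.2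
      exact ⟨f, A, B, a1, a2, a4, by rw [hi, h.ce0, h.we0, a5], fun _ => a3⟩
    · obtain ⟨f, A, B, a1, a2, a3, a4⟩ := loc_quot hv (h.mem i v hv)
      exact ⟨f, A, B, a1, a2, a3, a4, fun h' => absurd h' hi⟩
  choose f A B hA hB hBv hrel hAv using hq
  have hB' : ∀ i, (B i * Q₀ ^ S.w i).IsHomogeneous (f i + e * S.w i) := fun i =>
    (hB i).mul (hQ.pow _)
  refine ⟨P₀, A, fun i => B i * Q₀ ^ S.w i, fun i => ⟨S.w i + (f i + e * S.w i) * D, ?_, ?_⟩,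
    fun W _ _ z hz hsp => ⟨nv hd h hv hP ?_ hz hsp, hsp _ _ (hA _) (hAv _ rfl), fun i =>
      hsp _ _ (hB' i) ?_⟩⟩
  · refine ((isWeightedHomogeneous_X ℂ S.w i).mul (wh_e0 h (hB' i))).sub ?_
    have h1 := (wh_e0 h (hA i)).mul (hP.pow (S.w i))
    rwa [show f i * D + S.w i • (e * D + 1) = S.w i + (f i + e * S.w i) * D by
      rw [smul_eq_mul]; ring] at h1
  · rw [map_sub, map_mul, aeval_X, aeval_e0 h (hB' i), map_mul (aeval S.c), aeval_e0 h (hA i),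
      map_pow, hPc,
      ← hrel i, map_mul, map_pow, div_pow, mul_pow, ← pow_mul, pow_add]
    field_simp
    ring
  · have h0 : aeval t Q₀ ≠ 0 := fun h0 => hQv (hv.2 e Q₀ hQ h0)
    have h1 : Un (locRing t v) (aeval t Q₀ / t l ^ e) := by
      refine ⟨div_ne_zero h0 (pow_ne_zero e htl), Algebra.subset_adjoin
        ⟨e, Q₀, X l ^ e, hQ, isHomogeneous_X_pow l e, ?_, ?_⟩, Algebra.subset_adjoin
        ⟨e, X l ^ e, Q₀, isHomogeneous_X_pow l e, hQ, hQv, ?_⟩⟩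
      · rw [map_pow, eval_X]
        exact pow_ne_zero e hl
      · rw [map_pow, aeval_X, div_mul_cancel₀ _ (pow_ne_zero e htl)]
      · rw [map_pow, aeval_X, inv_div, div_mul_cancel₀ _ h0]
    have h2 := (hU.pow e).mul h1
    have h3 : (S.u * t l * g v ^ D) ^ e * (aeval t Q₀ / t l ^ e) =
        aeval S.c P₀ * g v ^ (e * D + 1) := by
      rw [hPc, mul_pow, mul_pow, ← pow_mul, mul_comm D e, pow_succ]
      field_simp
    rwa [h3] at h2
  · rw [map_mul, map_pow]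
    exact mul_ne_zero (hBv i) (pow_ne_zero _ hQv)

theorem loc_zero (ht : IsFunctionField t) (hs : IsSmoothOfDim t d) (hd : Gd t D S.u g)
    (h : Gens S t d D g) {e : Fin r ⊕ Fin (d + 1) ≃ Fin (N + 1)} {G : Fin r → MP N}
    {γ : Fin r → ℕ} (hG : Good t e v G γ τ) : ∃ q : MvPolynomial (Fin S.M) ℂ,
      (∀ (W : Type) [Field W] [Algebra ℂ W] (z : Fin S.M → W), S.On z → Spec v (z ∘ S.e0) →
        aeval z q ≠ 0) ∧
      ∀ (R : Type) [CommRing R] [Algebra ℂ R] (z δ : Fin S.M → R), S.On z → S.Tan z δ →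
        (∀ a, δ (S.e0 (τ a)) = 0) → aeval z q • δ = 0 := by
  classical
  obtain ⟨P₀, A, B, h1, h2⟩ := rel ht hs hd h hG.on hG.l
  refine ⟨rename S.e0 (jd e X G τ : MP N) * rename S.e0 (A (S.e0 (τ 0))) * P₀ ^ (D - 1) *
    ∏ i, rename S.e0 (B i), fun W _ _ z hz hsp => ?_, fun R _ _ z δ _ hδ h0 => ?_⟩
  · obtain ⟨a1, a2, a3⟩ := h2 W z hz hsp
    rw [map_mul, map_mul, map_mul, map_pow, map_prod, aeval_rename, aeval_rename, jd_aeval]
    refine mul_ne_zero (mul_ne_zero (mul_ne_zero (hG.jd_ne hsp) a2) (pow_ne_zero _ a1))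
      (Finset.prod_ne_zero_iff.2 fun i _ => ?_)
    rw [aeval_rename]
    exact a3 i
  have hM : (jm e (grad (z ∘ S.e0) G) τ).mulVec ((δ ∘ S.e0) ∘ e) = 0 := by
    rw [jm_mulVec]
    funext i
    rcases i with i | i
    · exact kinK h hδ _ _ (hG.eq i).1 (hG.eq i).2
    · exact h0 i
  have hJ : ∀ j, jd e (z ∘ S.e0) G τ * δ (S.e0 j) = 0 := by
    intro j
    have a1 := congrArg ((jm e (grad (z ∘ S.e0) G) τ).adjugate.mulVec) hM
    rw [mulVec_mulVec, adjugate_mul, mulVec_zero, smul_mulVec, one_mulVec] at a1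
    have a2 := congrFun a1 (e.symm j)
    rwa [Pi.smul_apply, Function.comp_apply, e.apply_symm_apply] at a2
  have hJd : ∀ Q : MP N, jd e (z ∘ S.e0) G τ * kdd z δ (rename S.e0 Q) = 0 := by
    intro Q
    rw [dd_e0, kdd, Finset.mul_sum]
    refine Finset.sum_eq_zero fun j _ => ?_
    rw [mul_left_comm, Function.comp_apply, hJ, mul_zero]
  have hrel : ∀ i, jd e (z ∘ S.e0) G τ * (aeval z (rename S.e0 (B i)) * δ i) =
      jd e (z ∘ S.e0) G τ * aeval z (rename S.e0 (A i)) *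
        (S.w i * aeval z P₀ ^ (S.w i - 1) * kdd z δ P₀) := by
    intro i
    obtain ⟨k, a1, a2⟩ := h1 i
    have a3 : kdd z δ (X i * rename S.e0 (B i) - rename S.e0 (A i) * P₀ ^ S.w i) = 0 :=
      hδ k _ a1 a2
    rw [dd_sub, dd_mul, dd_mul, dd_X, dd_pow] at a3
    linear_combination jd e (z ∘ S.e0) G τ * a3 - aeval z (X i : MvPolynomial (Fin S.M) ℂ) *
      hJd (B i) + aeval z (P₀ ^ S.w i) * hJd (A i)
  have hD : IsUnit (D : R) := by
    have a1 := (IsUnit.mk0 (D : ℂ) (Nat.cast_ne_zero.2 hd.pos.ne')).map (algebraMap ℂ R)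
    rwa [map_natCast] at a1
  have hρ : jd e (z ∘ S.e0) G τ * aeval z (rename S.e0 (A (S.e0 (τ 0)))) *
      aeval z P₀ ^ (D - 1) * kdd z δ P₀ = 0 := by
    have a1 := hrel (S.e0 (τ 0))
    rw [h0, h.we0] at a1
    refine hD.mul_right_eq_zero.1 ?_
    linear_combination -a1
  funext i
  rw [Pi.smul_apply, smul_eq_mul, Pi.zero_apply, map_mul, map_mul, map_mul, map_pow, map_prod,
    aeval_rename, jd_aeval, ← Finset.mul_prod_erase _ _ (Finset.mem_univ i)]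
  linear_combination (aeval z (rename S.e0 (A (S.e0 (τ 0)))) * aeval z P₀ ^ (D - 1) *
    ∏ j ∈ Finset.univ.erase i, aeval z (rename S.e0 (B j))) * hrel i +
    (aeval z (rename S.e0 (A i)) * (S.w i * aeval z P₀ ^ (S.w i - 1)) *
      ∏ j ∈ Finset.univ.erase i, aeval z (rename S.e0 (B j))) * hρ

end Vale.Agent.P292
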