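import Vale.Agent.P292.K.RGen
import Vale.Agent.P292.K.RLift
import Vale.Agent.P292.K.RUniq
import Vale.Agent.P292.K.RNrm

/-! P292 K/Ring: generators of the section ring. -/

open Set Matrix MvPolynomial

noncomputable section

namespace Vale.Agent.P292

open Vale.Agent.P271 Vale.Agent.P276

variable {K : Type} [Field K] [Algebra ℂ K] {N n m d r D : ℕ} {t : Fin (N + 1) → K} {S : Cn K N}
  {θ : Derivation ℂ K K →ₗ[K] K} {v : Fin (N + 1) → ℂ} {g : (Fin (N + 1) → ℂ) → K} {g₀ : K}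
  {W : Type} [Field W] [Algebra ℂ W] {τ : Fin (d + 1) → Fin (N + 1)} {f : Fin (d + 1) → Vh K}
  {H : Fin S.M → Vh K}

theorem exists_gens (ht : IsFunctionField t) (hs : IsSmoothOfDim t d) {u : K} (h : Gd t D u g) :
    ∃ S : Cn K N, S.u = u ∧ Gens S t d D g ∧ Gens1 S t d D := by
  obtain ⟨S, rfl, hS⟩ := exists_gens0 ht hs h
  have h1 := hS.gens ht h d
  exact ⟨S, rfl, h1, hS.int ht h, fun W _ _ _ x hx _ => hS.lift ht h W x hx, h1.uniq ht hs h,
    h1.free ht hs h, hS.nrm ht hs⟩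

end Vale.Agent.P292
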