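import Vale.Agent.P292.K.Defs
import Vale.Agent.P292.K.SkewX

/-! P292 K/Skew (TASK). The determinant of a skew matrix is a square. Strong induction on the
cardinality of the index type (generalise `ι`). `A = 0`: the determinant is `1` (empty) or `0`.
Otherwise `A i j ≠ 0`, `i ≠ j` (diagonal zero, characteristic zero); reindex by
`Equiv.sumCompl (fun x => x = i ∨ x = j)` (or an equivalence `Fin 2 ⊕ ι' ≃ ι`), use
`Matrix.det_fromBlocks₁₁`: the 2 by 2 block has determinant `A i j ^ 2`, and the Schur complement
is skew. Prefix helper names by `ksk_`. -/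

open Set Matrix MvPolynomial

noncomputable section

namespace Vale.Agent.P292

open Vale.Agent.P271 Vale.Agent.P276

variable {K : Type} [Field K] [Algebra ℂ K] {N n m d r D : ℕ} {t : Fin (N + 1) → K} {S : Cn K N}
  {θ : Derivation ℂ K K →ₗ[K] K} {v : Fin (N + 1) → ℂ} {g : (Fin (N + 1) → ℂ) → K} {g₀ : K}
  {W : Type} [Field W] [Algebra ℂ W] {τ : Fin (d + 1) → Fin (N + 1)} {f : Fin (d + 1) → Vh K}
  {H : Fin S.M → Vh K}

theorem isSquare_det_skew {ι : Type} [Fintype ι] [DecidableEq ι] (A : Matrix ι ι K)
    (h : Aᵀ = -A) : IsSquare A.det := by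
  have : CharZero K := charZero_of_injective_algebraMap (algebraMap ℂ K).injective
  exact ksk_main _ ι rfl A h

end Vale.Agent.P292
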