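import Vale.Agent.P292.K.Defs

/-! P292 K/Tr (TASK). Weighted homogeneous polynomials. `wh_mul_pderiv`: if `w l ≤ e` use
`IsWeightedHomogeneous.pderiv`, else `pderiv l P = 0` (no monomial of `P` contains `l`).
`dk_aeval`: Euler (`IsWeightedHomogeneous.sum_weight_X_mul_pderiv`) and the chain rule
(`IsDer.aeval` as in `hse_euler`). `wh_e0`: sum of monomials, or induction
(`IsWeightedHomogeneous` products of `X (e0 j)`). `aeval_rename`, `aeval_mul_homog`.
`kdd` is the derivative at `z` in the direction `δ`; `dd_e0` by `MvPolynomial.induction_on`.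
`kne`: `uniq` with `z' = 0`. Prefix helper names by `ktr_`. -/

open Set Matrix MvPolynomial

noncomputable section

namespace Vale.Agent.P292

open Vale.Agent.P271 Vale.Agent.P276

variable {K : Type} [Field K] [Algebra ℂ K] {N n m d r D : ℕ} {t : Fin (N + 1) → K} {S : Cn K N}
  {θ : Derivation ℂ K K →ₗ[K] K} {v : Fin (N + 1) → ℂ} {g : (Fin (N + 1) → ℂ) → K} {g₀ : K}
  {W : Type} [Field W] [Algebra ℂ W] {τ : Fin (d + 1) → Fin (N + 1)} {f : Fin (d + 1) → Vh K}
  {H : Fin S.M → Vh K}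

theorem wh_mul_pderiv {σ : Type} {w : σ → ℕ} {P Q : MvPolynomial σ ℂ} {a e : ℕ} {l : σ}
    (hQ : Q.IsWeightedHomogeneous w (a + w l)) (hP : P.IsWeightedHomogeneous w e) :
    (Q * pderiv l P).IsWeightedHomogeneous w (a + e) := by
  by_cases h : w l ≤ e
  · have h1 := hQ.mul (hP.pderiv (i := l) (n' := e - w l) (by omega))
    have e1 : a + w l + (e - w l) = a + e := by omega
    rwa [e1] at h1
  · have h0 : pderiv l P = 0 := by
      ext s
      rw [coeff_pderiv, coeff_zero, hP.coeff_eq_zero, zero_mul]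
      rw [map_add, Finsupp.weight_single, one_smul]
      omega
    rw [h0, mul_zero]
    exact isWeightedHomogeneous_zero _ _ _

theorem wh_det {σ ι : Type} [Fintype ι] [DecidableEq ι] {w : σ → ℕ}
    {A : Matrix ι ι (MvPolynomial σ ℂ)} {e : ℕ} (h : ∀ i j, (A i j).IsWeightedHomogeneous w e) :
    A.det.IsWeightedHomogeneous w (Fintype.card ι * e) := by
  rw [Matrix.det_apply']
  refine IsWeightedHomogeneous.sum _ _ _ fun π _ => ?_
  have h1 := IsWeightedHomogeneous.prod Finset.univ (fun i => A (π i) i) (fun _ => e)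
    fun i _ => h _ _
  rw [Finset.sum_const, Finset.card_univ, smul_eq_mul] at h1
  have h2 := h1.C_mul ((Equiv.Perm.sign π : ℤ) : ℂ)
  rwa [map_intCast] at h2

theorem dk_aeval {M : ℕ} {w : Fin M → ℕ} (c : Fin M → K) {P : MvPolynomial (Fin M) ℂ} {e : ℕ}
    (hP : P.IsWeightedHomogeneous w e) (V : Vh K) :
    dk e (aeval c P) V = ∑ l, aeval c (pderiv l P) * dk (w l) (c l) V := by
  have e1 := congrArg (aeval c) hP.sum_weight_X_mul_pderiv
  rw [map_sum, map_nsmul, nsmul_eq_mul] at e1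
  rw [dk_apply, IsDer.aeval (ψ := AlgHom.id ℂ K) (δ := V.2)
    ⟨map_add V.2, V.2.leibniz, V.2.map_algebraMap⟩ c P, mul_right_comm, ← e1, Finset.sum_mul,
    ← Finset.sum_add_distrib]
  refine Finset.sum_congr rfl fun l _ => ?_
  rw [dk_apply, map_nsmul, map_mul, aeval_X, AlgHom.id_apply, smul_eq_mul, nsmul_eq_mul]
  ring

theorem wh_e0 (h : Gens S t d D g) {Q : MP N} {e : ℕ} (hQ : Q.IsHomogeneous e) :
    (rename S.e0 Q).IsWeightedHomogeneous S.w (e * D) := by
  rw [← Q.support_sum_monomial_coeff, map_sum]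
  refine IsWeightedHomogeneous.sum _ _ _ fun s hs => ?_
  rw [rename_monomial]
  refine isWeightedHomogeneous_monomial _ _ _ ?_
  rw [Finsupp.weight_apply, Finsupp.sum_mapDomain_index (h := fun i (c : ℕ) => c • S.w i)
    (fun _ => zero_smul _ _) (fun _ _ _ => add_smul _ _ _), hQ.degree_eq_sum_deg_support hs,
    Finsupp.sum, Finset.sum_mul]
  exact Finset.sum_congr rfl fun j _ => by rw [h.we0, smul_eq_mul]

theorem aeval_e0 (h : Gens S t d D g) {Q : MP N} {e : ℕ} (hQ : Q.IsHomogeneous e) :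
    aeval S.c (rename S.e0 Q) = S.u ^ e * aeval t Q := by
  have e1 : S.c ∘ S.e0 = fun j => t j * S.u := funext fun j => by
    rw [Function.comp_apply, h.ce0, mul_comm]
  rw [aeval_rename, e1, aeval_mul_homog hQ, mul_comm]

section Ring

variable {R : Type} [CommRing R] [Algebra ℂ R] {M : ℕ}

/-- The derivative at `z` in the direction `δ`. -/
def kdd (z δ : Fin M → R) (P : MvPolynomial (Fin M) ℂ) : R := ∑ i, aeval z (pderiv i P) * δ i

theorem dd_mul (z δ : Fin M → R) (P Q : MvPolynomial (Fin M) ℂ) :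
    kdd z δ (P * Q) = aeval z P * kdd z δ Q + aeval z Q * kdd z δ P := by
  simp only [kdd, Derivation.leibniz, smul_eq_mul, map_add, map_mul, add_mul,
    Finset.sum_add_distrib, Finset.mul_sum, mul_assoc]

theorem dd_sub (z δ : Fin M → R) (P Q : MvPolynomial (Fin M) ℂ) :
    kdd z δ (P - Q) = kdd z δ P - kdd z δ Q := by
  simp only [kdd, map_sub, sub_mul, Finset.sum_sub_distrib]

theorem dd_X (z δ : Fin M → R) (i : Fin M) : kdd z δ (X i) = δ i := by
  rw [kdd, Finset.sum_eq_single i (fun j _ hj => by rw [pderiv_X_of_ne hj.symm, map_zero, zero_mul])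
    (fun hi => (hi (Finset.mem_univ i)).elim), pderiv_X_self, map_one, one_mul]

theorem dd_pow (z δ : Fin M → R) (P : MvPolynomial (Fin M) ℂ) (k : ℕ) :
    kdd z δ (P ^ k) = k * aeval z P ^ (k - 1) * kdd z δ P := by
  simp only [kdd, pderiv_pow, map_mul, map_pow, map_natCast, Finset.mul_sum, mul_assoc]

theorem dd_e0 (z δ : Fin M → R) (e : Fin (N + 1) → Fin M) (Q : MP N) :
    kdd z δ (rename e Q) = kdd (z ∘ e) (δ ∘ e) Q := by
  induction Q using MvPolynomial.induction_on with
  | C a => simp [kdd]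
  | add p q hp hq =>
    simp only [kdd, map_add, add_mul, Finset.sum_add_distrib] at hp hq ⊢
    rw [hp, hq]
  | mul_X p i hp =>
    rw [map_mul, rename_X, dd_mul, dd_mul, hp, dd_X, dd_X, aeval_X, aeval_X, aeval_rename]
    rfl

theorem kon0 (h : Gens S t d D g) {z : Fin S.M → R} (hz : S.On z) : On0 t (z ∘ S.e0) := by
  intro k P hP h0
  rw [← aeval_rename]
  exact hz _ _ (wh_e0 h hP) (by rw [aeval_e0 h hP, h0, mul_zero])

theorem kinK (h : Gens S t d D g) {z δ : Fin S.M → R} (hz : S.Tan z δ) :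
    InK t (z ∘ S.e0) (δ ∘ S.e0) := by
  intro k P hP h0
  exact (dd_e0 z δ S.e0 P).symm.trans
    (hz _ _ (wh_e0 h hP) (by rw [aeval_e0 h hP, h0, mul_zero]))

end Ring

theorem ktr_on0 (hw : ∀ i, 0 < S.w i) {z : Fin S.M → W} (hz : S.On z) :
    S.On (0 : Fin S.M → W) := by
  intro k P hP h0
  rcases Nat.eq_zero_or_pos k with rfl | hk
  · have h1 := hz 0 P hP h0
    have e : P = C (coeff 0 P) := hP.eq_monomial_of_unique_weight fun s hs => by
      ext i
      by_contra hi
      have h2 := Finsupp.le_weight_of_ne_zero' S.w hi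
      have h3 := hw i
      omega
    generalize coeff 0 P = a at e
    rw [e, aeval_C] at h1 ⊢
    exact h1
  · rw [aeval_zero, constantCoeff_eq, hP.coeff_eq_zero 0 (by rw [map_zero]; omega), map_zero]

theorem kne (_hD : 0 < D) (h : Gens S t d D g) {z : Fin S.M → W} (hz : S.On z) (h0 : z ≠ 0) :
    z ∘ S.e0 ≠ 0 := h.ne W z hz h0

end Vale.Agent.P292
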